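import Vale.Agent.P165.Spectral

/-!
# Percolation lemmas: connections, non-uniqueness below `1/L`, second moments
-/

namespace Vale.Agent.P165

open MeasureTheory ProbabilityTheory Finset

variable {V ι : Type} {G : SimpleGraph V}

instance (G : SimpleGraph V) (p : unitInterval) : IsProbabilityMeasure (perc G p) := by
  unfold perc; infer_instance

/-- All edges of a finite set are open. -/
def openOn (G : SimpleGraph V) (S : Finset (Sym2 V)) : Set (Config G) :=
  {ω | ∀ e : G.edgeSet, (e : Sym2 V) ∈ S → ω e = true}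

theorem openOn_eq_pi (S : Finset (Sym2 V)) [DecidablePred (· ∈ G.edgeSet)] :
    openOn G S = Set.pi (↑(S.subtype (· ∈ G.edgeSet))) fun _ => ({true} : Set Bool) := by
  ext ω
  simp [openOn, Set.mem_pi]

theorem measurableSet_openOn (S : Finset (Sym2 V)) : MeasurableSet (openOn G S) := by
  classical
  rw [openOn_eq_pi]
  exact MeasurableSet.pi (Finset.countable_toSet _) fun _ _ => measurableSet_singleton _

theorem real_openOn (p : unitInterval) {S : Finset (Sym2 V)} (hS : ↑S ⊆ G.edgeSet) :
    (perc G p).real (openOn G S) = (p : ℝ) ^ S.card := by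
  classical
  rw [openOn_eq_pi, measureReal_def, perc, Measure.infinitePi_pi]
  · rw [ENNReal.toReal_prod]
    have : ∀ e ∈ S.subtype (· ∈ G.edgeSet),
        ((bernoulliMeasure true false p) {true}).toReal = (p : ℝ) := by
      intro e _
      rw [← measureReal_def]
      simp
    rw [prod_congr rfl this, prod_const]
    congr 1
    rw [card_subtype, filter_true_of_mem fun e he => hS he]
  · exact fun _ _ => measurableSet_singleton _

/-- `y` and `z` are in one open cluster. -/
def reach (G : SimpleGraph V) (y z : V) : Set (Config G) :=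
  {ω | (openGraph G ω).Reachable y z}

/-- The cluster of `y` is infinite. -/
def infAt (G : SimpleGraph V) (y : V) : Set (Config G) :=
  {ω | {z | (openGraph G ω).Reachable y z}.Infinite}

theorem mem_infClusters {ω : Config G} {y : V} :
    (openGraph G ω).connectedComponentMk y ∈ infClusters G ω ↔ ω ∈ infAt G y := by
  have : ((openGraph G ω).connectedComponentMk y).supp
      = {z | (openGraph G ω).Reachable y z} := by
    ext z
    simp only [SimpleGraph.ConnectedComponent.mem_supp_iff, SimpleGraph.ConnectedComponent.eq,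
      Set.mem_ofPred_eq]
    exact ⟨fun h => h.symm, fun h => h.symm⟩
  show Set.Infinite _ ↔ _
  rw [this]
  rfl

theorem hasInfinite_eq : hasInfinite G = ⋃ y, infAt G y := by
  ext ω
  simp only [Set.mem_iUnion, hasInfinite, Set.mem_ofPred_eq]
  constructor
  · rintro ⟨c, hc⟩
    obtain ⟨y, rfl⟩ := c.exists_rep
    exact ⟨y, mem_infClusters.1 hc⟩
  · rintro ⟨y, hy⟩
    exact ⟨_, mem_infClusters.2 hy⟩

theorem uniqueInfinite_eq : uniqueInfinite G
    = hasInfinite G \ ⋃ y, ⋃ z, (infAt G y ∩ infAt G z) \ reach G y z := by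
  ext ω
  simp only [uniqueInfinite, hasInfinite, Set.mem_sdiff, Set.mem_iUnion, Set.mem_inter_iff,
    Set.mem_ofPred_eq, not_exists, not_and, not_not]
  constructor
  · rintro ⟨c, hc, hu⟩
    refine ⟨⟨c, hc⟩, fun y z hyz => ?_⟩
    obtain ⟨hy, hz⟩ := hyz
    exact SimpleGraph.ConnectedComponent.eq.1
      ((hu _ (mem_infClusters.2 hy)).trans (hu _ (mem_infClusters.2 hz)).symm)
  · rintro ⟨⟨c, hc⟩, h⟩
    refine ⟨c, hc, fun c' hc' => ?_⟩
    obtain ⟨y, rfl⟩ := c.exists_rep
    obtain ⟨z, rfl⟩ := c'.exists_rep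
    exact SimpleGraph.ConnectedComponent.eq.2
      (h z y ⟨mem_infClusters.1 hc', mem_infClusters.1 hc⟩)

variable (nb : V → ι → V)

/-- The end of the walk with labels `e` from `v`. -/
def endV : (n : ℕ) → (Fin n → ι) → V → V
  | 0, _, v => v
  | n + 1, e, v => endV n (Fin.tail e) (nb v (e 0))

variable [DecidableEq V]

/-- The edges of the walk with labels `e` from `v`. -/
def edgesV : (n : ℕ) → (Fin n → ι) → V → Finset (Sym2 V)
  | 0, _, _ => ∅
  | n + 1, e, v => insert s(v, nb v (e 0)) (edgesV n (Fin.tail e) (nb v (e 0)))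

variable {nb}

theorem edgesV_subset (hl : Listing G nb) : ∀ (n : ℕ) (e : Fin n → ι) (v : V),
    ↑(edgesV nb n e v) ⊆ G.edgeSet
  | 0, e, v => by simp [edgesV]
  | n + 1, e, v => by
      rw [edgesV, coe_insert, Set.insert_subset_iff]
      exact ⟨hl.adj_nb v (e 0), edgesV_subset hl n _ _⟩

theorem reachable_of_open (hl : Listing G nb) {ω : Config G} : ∀ (n : ℕ) (e : Fin n → ι) (v : V),
    ω ∈ openOn G (edgesV nb n e v) → (openGraph G ω).Reachable v (endV nb n e v)
  | 0, _, v, _ => SimpleGraph.Reachable.refl v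
  | n + 1, e, v, h => by
      have hadj := hl.adj_nb v (e 0)
      have h1 : (openGraph G ω).Adj v (nb v (e 0)) :=
        ⟨hadj, h ⟨_, hadj⟩ (by simp [edgesV])⟩
      exact h1.reachable.trans (reachable_of_open hl n (Fin.tail e) _
        fun x hx => h x (by rw [edgesV]; exact mem_insert_of_mem hx))

theorem exists_seq (hl : Listing G nb) {ω : Config G} {v z : V}
    (w : (openGraph G ω).Walk v z) : ∃ e : Fin w.length → ι,
      endV nb w.length e v = z ∧ edgesV nb w.length e v = w.edges.toFinset
        ∧ ω ∈ openOn G (edgesV nb w.length e v) := by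
  induction w with
  | nil => exact ⟨fun i => i.elim0, rfl, by simp [edgesV], fun x hx => by simp [edgesV] at hx⟩
  | @cons u v z hadj w ih =>
    obtain ⟨e, he, hed, hop⟩ := ih
    obtain ⟨hG, hopen⟩ := hadj
    obtain ⟨a, ha⟩ := (hl.adj u v).1 hG
    refine ⟨Fin.cons a e, ?_, ?_, ?_⟩
    · show endV nb (w.length + 1) (Fin.cons a e) u = z
      rw [endV, Fin.tail_cons, Fin.cons_zero, ha]
      exact he
    · show edgesV nb (w.length + 1) (Fin.cons a e) u = _
      rw [edgesV, Fin.tail_cons, Fin.cons_zero, ha]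
      exact (congrArg (insert s(u, v)) hed).trans (List.toFinset_cons).symm
    · intro x hx
      replace hx : (x : Sym2 V) ∈ edgesV nb (w.length + 1) (Fin.cons a e) u := hx
      rw [edgesV, Fin.tail_cons, Fin.cons_zero, ha, mem_insert] at hx
      rcases hx with hx | hx
      · have : x = ⟨s(u, v), hG⟩ := Subtype.ext hx
        rw [this]; exact hopen
      · exact hop x hx

variable [Fintype ι]

theorem card_endV (n : ℕ) : ∀ (z v : V),
    ((univ.filter fun e : Fin n → ι => endV nb n e v = z).card : ℝ) = walkCount nb n z v := by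
  induction n with
  | zero =>
    intro z v
    by_cases h : v = z <;> simp [endV, walkCount, h]
  | succ n ih =>
    intro z v
    rw [walkCount]
    simp only [← ih, ← sum_boole]
    rw [← (Fin.consEquiv (fun _ : Fin (n + 1) => ι)).sum_comp, Fintype.sum_prod_type]
    simp [endV, Fin.consEquiv]

theorem reach_eq (hl : Listing G nb) (y z : V) : reach G y z
    = ⋃ n, ⋃ e ∈ (univ.filter fun e : Fin n → ι => endV nb n e y = z),
        openOn G (edgesV nb n e y) := by
  ext ω
  simp only [Set.mem_iUnion, mem_filter, mem_univ, true_and, exists_prop]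
  constructor
  · intro h
    obtain ⟨w⟩ := h
    obtain ⟨e, he, -, hop⟩ := exists_seq hl w
    exact ⟨_, e, he, hop⟩
  · rintro ⟨n, e, rfl, hop⟩
    exact reachable_of_open hl n e y hop

theorem measurableSet_reach (hl : Listing G nb) (y z : V) : MeasurableSet (reach G y z) := by
  rw [reach_eq hl]
  exact MeasurableSet.iUnion fun n => MeasurableSet.biUnion (Finset.countable_toSet _)
    fun e _ => measurableSet_openOn _

theorem mem_walkBall (hl : Listing G nb) {u v : V} (w : G.Walk u v) :
    u ∈ walkBall nb w.length v := by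
  induction w with
  | nil => simp [walkBall]
  | @cons u v z h w ih =>
    obtain ⟨a, ha⟩ := (hl.adj v u).1 h.symm
    exact mem_image.2 ⟨(v, a), by simp [ih], ha⟩

theorem countable_of_connected (hl : Listing G nb) (hc : G.Connected) : Countable V := by
  obtain ⟨o⟩ := hc.nonempty
  have hsub : (Set.univ : Set V) ⊆ ⋃ n, ↑(walkBall nb n o) := fun v _ => by
    obtain ⟨w⟩ := hc.preconnected v o
    exact Set.mem_iUnion.2 ⟨_, mem_walkBall hl w⟩
  exact Set.countable_univ_iff.1
    ((Set.countable_iUnion fun n => Finset.countable_toSet _).mono hsub)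

/-- The cluster of `y` has more than `n` vertices. -/
def bigAt (G : SimpleGraph V) (y : V) (n : ℕ) : Set (Config G) :=
  ⋃ s : Finset V, ⋃ _ : n < s.card, ⋂ z ∈ s, reach G y z

omit [DecidableEq V] [Fintype ι] in
theorem infAt_eq (y : V) : infAt G y = ⋂ n, bigAt G y n := by
  ext ω
  simp only [infAt, bigAt, Set.mem_ofPred_eq, Set.mem_iInter, Set.mem_iUnion, exists_prop]
  constructor
  · intro h n
    obtain ⟨s, hs, hcard⟩ := h.exists_subset_card_eq (n + 1)
    exact ⟨s, by omega, fun z hz => hs hz⟩
  · intro h hfin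
    obtain ⟨s, hs, hs'⟩ := h hfin.toFinset.card
    exact absurd (card_le_card fun z hz => hfin.mem_toFinset.2 (hs' z hz)) (not_le.2 hs)

theorem measurableSet_bigAt [Countable V] (hl : Listing G nb) (y : V) (n : ℕ) :
    MeasurableSet (bigAt G y n) :=
  MeasurableSet.iUnion fun s => MeasurableSet.iUnion fun _ =>
    MeasurableSet.biInter (Finset.countable_toSet _) fun z _ => measurableSet_reach hl y z

theorem measurableSet_infAt [Countable V] (hl : Listing G nb) (y : V) :
    MeasurableSet (infAt G y) := by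
  rw [infAt_eq]
  exact MeasurableSet.iInter fun n => measurableSet_bigAt hl y n

theorem measurableSet_uniqueInfinite [Countable V] (hl : Listing G nb) :
    MeasurableSet (uniqueInfinite G) := by
  rw [uniqueInfinite_eq, hasInfinite_eq]
  exact MeasurableSet.diff (MeasurableSet.iUnion fun y => measurableSet_infAt hl y)
    (MeasurableSet.iUnion fun y => MeasurableSet.iUnion fun z =>
      MeasurableSet.diff ((measurableSet_infAt hl y).inter (measurableSet_infAt hl z))
        (measurableSet_reach hl y z))

/-- Connection probabilities decay exponentially when `p * L < 1`. -/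
theorem real_reach_le (hl : Labelling G nb) {L : ℝ} (hL : 0 < L) (hb : FormBound nb L)
    (p : unitInterval) (hp : (p : ℝ) * L < 1) {y z : V} (R : ℕ)
    (hfar : ∀ n < R, y ∉ walkBall nb n z) :
    (perc G p).real (reach G y z) ≤ ((p : ℝ) * L) ^ R / (1 - (p : ℝ) * L) := by
  classical
  set r := (p : ℝ) * L with hr
  have hr0 : 0 ≤ r := mul_nonneg p.2.1 hL.le
  let A : ℕ → Set (Config G) := fun n =>
    ⋃ e ∈ univ.filter (fun e : Fin n → ι => endV nb n e y = z ∧ (edgesV nb n e y).card = n),
      openOn G (edgesV nb n e y)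
  have hsub : reach G y z ⊆ ⋃ m, A (m + R) := by
    intro ω hω
    obtain ⟨w, hw⟩ := SimpleGraph.Reachable.exists_isPath hω
    obtain ⟨e, he, hed, hop⟩ := exists_seq hl.listing w
    have hlen : (edgesV nb w.length e y).card = w.length := by
      rw [hed, List.toFinset_card_of_nodup hw.isTrail.edges_nodup, SimpleGraph.Walk.length_edges]
    have hR : R ≤ w.length := by
      by_contra hlt
      have h0 : walkCount nb w.length z y = 0 :=
        walkCount_eq_zero hl _ _ _ (hfar _ (not_le.1 hlt))
      rw [← card_endV, Nat.cast_eq_zero, card_eq_zero] at h0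
      have hmem : e ∈ univ.filter (fun e => endV nb w.length e y = z) := by simp [he]
      rw [h0] at hmem
      simp at hmem
    refine Set.mem_iUnion.2 ⟨w.length - R, ?_⟩
    rw [Nat.sub_add_cancel hR]
    exact Set.mem_biUnion (by simp [he, hlen]) hop
  have hA : ∀ n, (perc G p).real (A n) ≤ r ^ n := by
    intro n
    refine (measureReal_biUnion_finset_le _ _).trans ?_
    calc ∑ e ∈ univ.filter (fun e : Fin n → ι => endV nb n e y = z ∧ (edgesV nb n e y).card = n),
          (perc G p).real (openOn G (edgesV nb n e y))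
        = ∑ _e ∈ univ.filter (fun e : Fin n → ι => endV nb n e y = z ∧ (edgesV nb n e y).card = n),
          (p : ℝ) ^ n := by
          refine sum_congr rfl fun e he => ?_
          rw [real_openOn p (edgesV_subset hl.listing n e y), (mem_filter.1 he).2.2]
      _ ≤ ∑ _e ∈ univ.filter (fun e : Fin n → ι => endV nb n e y = z), (p : ℝ) ^ n := by
          refine sum_le_sum_of_subset_of_nonneg (fun e he => ?_) fun _ _ _ => pow_nonneg p.2.1 _
          simp only [mem_filter] at he ⊢
          exact ⟨he.1, he.2.1⟩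
      _ = walkCount nb n z y * (p : ℝ) ^ n := by
          rw [sum_const, nsmul_eq_mul, card_endV]
      _ ≤ L ^ n * (p : ℝ) ^ n :=
          mul_le_mul_of_nonneg_right (walkCount_le hl hL hb n z y) (pow_nonneg p.2.1 _)
      _ = r ^ n := by rw [hr, mul_pow, mul_comm]
  have hs : Summable fun m => r ^ (m + R) := by
    simpa [pow_add] using (summable_geometric_of_lt_one hr0 hp).mul_right (r ^ R)
  have ht : ∑' m, r ^ (m + R) = r ^ R / (1 - r) := by
    simp only [pow_add]
    rw [tsum_mul_right, tsum_geometric_of_lt_one hr0 hp, ← div_eq_inv_mul]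
  rw [← ht, measureReal_def]
  refine ENNReal.toReal_le_of_le_ofReal (tsum_nonneg fun m => pow_nonneg hr0 _) ?_
  refine (measure_mono hsub).trans ((measure_iUnion_le _).trans ?_)
  rw [ENNReal.ofReal_tsum_of_nonneg (fun m => pow_nonneg hr0 _) hs]
  refine ENNReal.tsum_le_tsum fun m => ?_
  exact (ENNReal.le_ofReal_iff_toReal_le (measure_ne_top _ _) (pow_nonneg hr0 _)).2 (hA _)

omit [DecidableEq V] [Fintype ι] in
/-- Automorphisms preserve the chance of an infinite cluster. -/
theorem infAt_map (φ : G ≃g G) (p : unitInterval) (y : V) (hm : MeasurableSet (infAt G y)) :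
    perc G p (infAt G (φ y)) = perc G p (infAt G y) := by
  let f : Config G → Config G := fun ω e => ω (φ.mapEdgeSet e)
  have hmap : (perc G p).map f = perc G p := by
    have hf : f = MeasurableEquiv.piCongrLeft (fun _ : G.edgeSet => Bool) φ.mapEdgeSet.symm := by
      funext ω e
      obtain ⟨e', rfl⟩ := φ.mapEdgeSet.symm.surjective e
      rw [MeasurableEquiv.piCongrLeft_apply_apply]
      exact congrArg ω (φ.mapEdgeSet.apply_symm_apply e')
    rw [hf]
    exact Measure.infinitePi_map_piCongrLeft (fun _ : G.edgeSet => bernoulliMeasure true false p)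
      φ.mapEdgeSet.symm
  have hpre : f ⁻¹' infAt G y = infAt G (φ y) := by
    ext ω
    have hadj : ∀ u v, (openGraph G (f ω)).Adj u v ↔ (openGraph G ω).Adj (φ u) (φ v) := by
      intro u v
      constructor
      · rintro ⟨h, hv⟩
        refine ⟨φ.map_adj_iff.2 h, ?_⟩
        have : φ.mapEdgeSet ⟨s(u, v), h⟩ = ⟨s(φ u, φ v), φ.map_adj_iff.2 h⟩ := rfl
        rw [← this]; exact hv
      · rintro ⟨h, hv⟩
        exact ⟨φ.map_adj_iff.1 h, hv⟩
    let ψ : openGraph G (f ω) ≃g openGraph G ω :=
      { toEquiv := φ.toEquiv, map_rel_iff' := fun {u v} => (hadj u v).symm }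
    have hset : {z | (openGraph G ω).Reachable (φ y) z}
        = φ '' {z | (openGraph G (f ω)).Reachable y z} := by
      ext z
      obtain ⟨u, rfl⟩ := φ.surjective z
      rw [φ.injective.mem_set_image]
      exact ψ.reachable_iff (u := y) (v := u)
    show Set.Infinite _ ↔ Set.Infinite _
    rw [hset, Set.infinite_image_iff φ.injective.injOn]
  conv_rhs => rw [← hmap]
  rw [Measure.map_apply (by fun_prop) hm, hpre]

/-- No uniqueness when `p * L < 1`. -/
theorem not_unique (hl : Labelling G nb) (hc : G.Connected) [Infinite V] (hq : QuasiTransitive G)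
    {L : ℝ} (hL : 0 < L) (hb : FormBound nb L) (p : unitInterval) (hp : (p : ℝ) * L < 1) :
    perc G p (uniqueInfinite G) ≠ 1 := by
  classical
  have : Countable V := countable_of_connected hl.listing hc
  intro hU
  set μ := perc G p with hμ
  obtain ⟨y, hy⟩ : ∃ y, 0 < μ (infAt G y) := by
    by_contra hnone
    push Not at hnone
    have h0 : μ (hasInfinite G) = 0 := by
      rw [hasInfinite_eq, measure_iUnion_null_iff]
      exact fun y => le_antisymm (hnone y) bot_le
    have hsub : uniqueInfinite G ⊆ hasInfinite G := by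
      rw [uniqueInfinite_eq]; exact Set.sdiff_subset
    have := measure_mono (μ := μ) hsub
    rw [hU, h0] at this
    exact absurd this (by simp)
  set θ := μ.real (infAt G y) with hθ
  have hθ0 : 0 < θ := ENNReal.toReal_pos hy.ne' (measure_ne_top _ _)
  let O : Set V := {v | ∃ φ : G ≃g G, φ y = v}
  have hOθ : ∀ v ∈ O, μ.real (infAt G v) = θ := by
    rintro v ⟨φ, rfl⟩
    rw [hθ, measureReal_def, measureReal_def, infAt_map φ p y (measurableSet_infAt hl.listing y)]
  have hOinf : O.Infinite := by
    intro hfin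
    obtain ⟨Rep, hRep⟩ := hq
    have hw : ∀ r : V, ∃ n, ∃ w : G.Walk r y, w.length = n :=
      fun r => ⟨_, (hc.preconnected r y).some, rfl⟩
    choose N hN using hw
    have hcover : (Set.univ : Set V) ⊆ ⋃ r ∈ Rep, ⋃ o ∈ O, ↑(walkBall nb (N r) o) := by
      intro v _
      obtain ⟨φ, hφ⟩ := hRep v
      obtain ⟨w, hw⟩ := hN (φ v)
      let w' := w.map φ.symm.toHom
      refine Set.mem_biUnion hφ (Set.mem_biUnion (x := φ.symm y) ⟨φ.symm, rfl⟩ ?_)
      have := mem_walkBall hl.listing w'
      simp only [w', SimpleGraph.Walk.length_map, hw] at this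
      simpa using this
    exact Set.infinite_univ ((Rep.finite_toSet.biUnion fun r _ =>
      hfin.biUnion fun o _ => finite_toSet _).subset hcover)
  have hsel : ∀ (R m : ℕ), ∀ ε : ℝ, 0 ≤ ε →
      (∀ a z : V, (∀ n < R, a ∉ walkBall nb n z) → μ.real (reach G a z) ≤ ε) →
      ∃ S : Finset V, S.card = m ∧ ↑S ⊆ O ∧
        (m : ℝ) * θ ≤ μ.real (⋃ v ∈ S, infAt G v) + (m : ℝ) ^ 2 * ε := by
    intro R m ε hε hτ
    induction m with
    | zero => exact ⟨∅, by simp⟩
    | succ m ih =>
      obtain ⟨S, hSc, hSO, hSb⟩ := ih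
      obtain ⟨a, haO, ha⟩ := (hOinf.sdiff
        ((S ∪ (S ×ˢ range R).biUnion fun q => walkBall nb q.2 q.1).finite_toSet)).nonempty
      simp only [coe_union, coe_biUnion, Set.mem_union, mem_coe, Set.mem_iUnion, exists_prop,
        not_or, not_exists, not_and, mem_product, mem_range] at ha
      refine ⟨insert a S, by rw [card_insert_of_notMem ha.1, hSc], ?_, ?_⟩
      · rw [coe_insert]; exact Set.insert_subset haO hSO
      have hAU : MeasurableSet (⋃ v ∈ S, infAt G v) :=
        MeasurableSet.biUnion (Finset.countable_toSet _) fun v _ => measurableSet_infAt hl.listing v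
      have hinter : μ.real (infAt G a ∩ ⋃ v ∈ S, infAt G v) ≤ (m : ℝ) * ε := by
        rw [Set.inter_iUnion₂]
        refine (measureReal_biUnion_finset_le _ _).trans ?_
        calc ∑ v ∈ S, μ.real (infAt G a ∩ infAt G v) ≤ ∑ _v ∈ S, ε := by
              refine sum_le_sum fun v hv => ?_
              refine le_trans ?_ (hτ a v fun n hn => ha.2 (v, n) ⟨hv, hn⟩)
              have hsplit : infAt G a ∩ infAt G v ⊆ reach G a v ∪ (uniqueInfinite G)ᶜ := by
                intro ω hω
                by_cases hr : ω ∈ reach G a v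
                · exact Or.inl hr
                · refine Or.inr fun hu => ?_
                  rw [uniqueInfinite_eq] at hu
                  exact hu.2 (Set.mem_iUnion₂.2 ⟨a, v, hω, hr⟩)
              refine (measureReal_mono hsplit).trans ((measureReal_union_le _ _).trans ?_)
              have h0 : μ.real (uniqueInfinite G)ᶜ = 0 := by
                rw [measureReal_def, prob_compl_eq_one_sub (measurableSet_uniqueInfinite hl.listing), hU]
                simp
              rw [h0, add_zero]
          _ = (m : ℝ) * ε := by rw [sum_const, hSc, nsmul_eq_mul]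
      have hadd := measureReal_union_add_inter (μ := μ) (s := infAt G a) hAU (measure_ne_top _ _) (measure_ne_top _ _)
      rw [set_biUnion_insert, hOθ a haO] at *
      push_cast
      nlinarith
  have h1r : 0 < 1 - (p : ℝ) * L := by linarith
  have hr0 : 0 ≤ (p : ℝ) * L := mul_nonneg p.2.1 hL.le
  obtain ⟨m, hm⟩ := exists_nat_gt (2 / θ)
  rw [div_lt_iff₀ hθ0] at hm
  have hm0 : (0 : ℝ) < m := by
    by_contra hle
    nlinarith
  have hpos : 0 < (1 - (p : ℝ) * L) / (m : ℝ) ^ 2 := by positivity
  obtain ⟨R, hR⟩ := exists_pow_lt_of_lt_one hpos hp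
  obtain ⟨S, -, -, hb'⟩ := hsel R m (((p : ℝ) * L) ^ R / (1 - (p : ℝ) * L)) (by positivity)
    fun a z hz => real_reach_le hl hL hb p hp R hz
  have h3 : (m : ℝ) ^ 2 * (((p : ℝ) * L) ^ R / (1 - (p : ℝ) * L)) ≤ 1 := by
    rw [lt_div_iff₀ (by positivity)] at hR
    rw [← mul_div_assoc, div_le_iff₀ h1r]
    linarith
  have h4 : μ.real (⋃ v ∈ S, infAt G v) ≤ 1 := measureReal_le_one
  linarith

omit [Fintype ι] in
/-- The second-moment method. -/
theorem real_ge_of_second_moment {W : Type} (P : Finset W) (hP : P.Nonempty)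
    (E : W → Finset (Sym2 V)) (hE : ∀ w ∈ P, ↑(E w) ⊆ G.edgeSet) (p : unitInterval)
    (hp : 0 < (p : ℝ)) (U : Set (Config G)) (hU : MeasurableSet U)
    (hEU : ∀ w ∈ P, openOn G (E w) ⊆ U) {C : ℝ} (hC : 0 < C)
    (h2 : ∑ w ∈ P, ∑ w' ∈ P, ((p : ℝ)⁻¹) ^ (E w ∩ E w').card ≤ C * (P.card : ℝ) ^ 2) :
    C⁻¹ ≤ (perc G p).real U := by
  classical
  set μ := perc G p with hμ
  let c : W → ℝ := fun w => ((p : ℝ)⁻¹) ^ (E w).card
  let i : Set (Config G) → Config G → ℝ := fun A => A.indicator 1
  let f : Config G → ℝ := fun ω => ∑ w ∈ P, c w * i (openOn G (E w)) ω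
  have hint : ∀ A : Set (Config G), MeasurableSet A → Integrable (i A) μ := fun A hA =>
    (integrable_const (1 : ℝ)).indicator hA
  have hii : ∀ A : Set (Config G), MeasurableSet A → ∫ ω, i A ω ∂μ = μ.real A := fun A hA =>
    integral_indicator_one hA
  have hprod : ∀ (A B : Set (Config G)) ω, i A ω * i B ω = i (A ∩ B) ω := by
    intro A B ω
    by_cases hA : ω ∈ A <;> by_cases hB : ω ∈ B <;> simp [i, hA, hB]
  have hfsq : ∀ ω, f ω ^ 2 = ∑ w ∈ P, ∑ w' ∈ P,
      c w * c w' * i (openOn G (E w) ∩ openOn G (E w')) ω := by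
    intro ω
    simp only [f, pow_two, sum_mul_sum, ← hprod]
    exact sum_congr rfl fun w _ => sum_congr rfl fun w' _ => by ring
  have hfU : ∀ ω, f ω * i U ω = f ω := by
    intro ω
    simp only [f, sum_mul]
    refine sum_congr rfl fun w hw => ?_
    rw [mul_assoc, hprod, Set.inter_eq_left.2 (hEU w hw)]
  have hiU : ∀ ω, i U ω * i U ω = i U ω := fun ω => by rw [hprod, Set.inter_self]
  have hmO := fun w => measurableSet_openOn (G := G) (E w)
  have hintf : Integrable f μ :=
    integrable_finsetSum _ fun w _ => (hint _ (hmO w)).const_mul _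
  have hintf2 : Integrable (fun ω => f ω ^ 2) μ := by
    simp only [hfsq]
    exact integrable_finsetSum _ fun w _ => integrable_finsetSum _ fun w' _ =>
      (hint _ ((hmO w).inter (hmO w'))).const_mul _
  have hpne : (p : ℝ) ≠ 0 := hp.ne'
  have hmean : ∫ ω, f ω ∂μ = P.card := by
    simp only [f]
    rw [integral_finsetSum _ fun w _ => (hint _ (hmO w)).const_mul _]
    rw [sum_congr rfl fun w hw => show ∫ ω, c w * i (openOn G (E w)) ω ∂μ = 1 by
      rw [integral_const_mul, hii _ (hmO w), real_openOn p (hE w hw)]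
      simp only [c, ← mul_pow, inv_mul_cancel₀ hpne, one_pow]]
    simp
  have hsq : ∫ ω, f ω ^ 2 ∂μ = ∑ w ∈ P, ∑ w' ∈ P, ((p : ℝ)⁻¹) ^ (E w ∩ E w').card := by
    simp only [hfsq]
    rw [integral_finsetSum _ fun w _ => integrable_finsetSum _ fun w' _ =>
      (hint _ ((hmO w).inter (hmO w'))).const_mul _]
    refine sum_congr rfl fun w hw => ?_
    rw [integral_finsetSum _ fun w' _ => (hint _ ((hmO w).inter (hmO w'))).const_mul _]
    refine sum_congr rfl fun w' hw' => ?_
    have hun : openOn G (E w) ∩ openOn G (E w') = openOn G (E w ∪ E w') := by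
      ext ω
      simp only [openOn, Set.mem_inter_iff, Set.mem_ofPred_eq, mem_union]
      exact ⟨fun h e he => he.elim (h.1 e) (h.2 e),
        fun h => ⟨fun e he => h e (Or.inl he), fun e he => h e (Or.inr he)⟩⟩
    have hsub : ↑(E w ∪ E w') ⊆ G.edgeSet := by
      rw [coe_union]; exact Set.union_subset (hE w hw) (hE w' hw')
    rw [integral_const_mul, hii _ ((hmO w).inter (hmO w')), hun, real_openOn p hsub]
    simp only [c, ← pow_add]
    rw [← card_union_add_card_inter, pow_add, mul_comm (((p : ℝ)⁻¹) ^ _), mul_assoc, ← mul_pow,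
      inv_mul_cancel₀ hpne, one_pow, mul_one]
  set lam := C * (P.card : ℝ) with hlam
  have hnn : 0 ≤ ∫ ω, (f ω ^ 2 - 2 * lam * f ω + lam ^ 2 * i U ω) ∂μ := by
    refine integral_nonneg fun ω => ?_
    have : f ω ^ 2 - 2 * lam * f ω + lam ^ 2 * i U ω = (f ω - lam * i U ω) ^ 2 := by
      linear_combination (2 * lam) * hfU ω - lam ^ 2 * hiU ω
    simp only [Pi.zero_apply, this]
    positivity
  rw [integral_add (f := fun ω => f ω ^ 2 - 2 * lam * f ω) (hintf2.sub (hintf.const_mul _))
      ((hint U hU).const_mul _), integral_sub hintf2 (hintf.const_mul _),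
    integral_const_mul, integral_const_mul, hii U hU, hmean, hsq] at hnn
  have hcard : 0 < (P.card : ℝ) := by exact_mod_cast hP.card_pos
  rw [inv_le_iff_one_le_mul₀ hC]
  have : 0 ≤ C * (P.card : ℝ) ^ 2 * (C * μ.real U - 1) := by
    simp only [hlam] at hnn
    nlinarith
  nlinarith [(mul_pos hC (pow_pos hcard 2))]

theorem infAt_real_ge [Countable V] (hl : Labelling G nb) (p : unitInterval) (y : V) {c : ℝ}
    (h : ∀ n, c ≤ (perc G p).real (bigAt G y n)) : c ≤ (perc G p).real (infAt G y) := by
  have hanti : Antitone (bigAt G y) := by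
    intro a b hab ω hω
    simp only [bigAt, Set.mem_iUnion, exists_prop] at hω ⊢
    obtain ⟨s, hs, hs'⟩ := hω
    exact ⟨s, lt_of_le_of_lt hab hs, hs'⟩
  have ht : Filter.Tendsto (fun n => (perc G p).real (bigAt G y n)) Filter.atTop
      (nhds ((perc G p).real (infAt G y))) := by
    rw [infAt_eq]
    exact (ENNReal.tendsto_toReal (measure_ne_top _ _)).comp
      (tendsto_measure_iInter_atTop (fun n => (measurableSet_bigAt hl.listing y n).nullMeasurableSet)
        hanti ⟨0, measure_ne_top _ _⟩)
  exact ge_of_tendsto ht (Filter.Eventually.of_forall h)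

omit [DecidableEq V] [Fintype ι] in
theorem perc_one_unique [Infinite V] (hc : G.Connected) :
    perc G 1 (uniqueInfinite G) = 1 := by
  have hd : perc G 1 = Measure.dirac (fun _ => true) := by
    simp only [perc, bernoulliMeasure_one]
    exact Measure.infinitePi_dirac _
  have hG : openGraph G (fun _ => true) = G := by
    ext u v
    exact ⟨fun ⟨h, _⟩ => h, fun h => ⟨h, rfl⟩⟩
  have hmem : (fun _ => true) ∈ uniqueInfinite G := by
    obtain ⟨o⟩ := hc.nonempty
    have hall : ∀ y, (fun _ => true) ∈ infAt G y := fun y => by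
      show Set.Infinite _
      rw [hG, Set.eq_univ_of_forall fun z => show z ∈ {z | G.Reachable y z} from hc.preconnected y z]
      exact Set.infinite_univ
    refine ⟨_, mem_infClusters.2 (hall o), fun c _ => ?_⟩
    obtain ⟨z, rfl⟩ := c.exists_rep
    refine SimpleGraph.ConnectedComponent.eq.2 ?_
    rw [hG]
    exact hc.preconnected z o
  rw [hd]
  exact Measure.dirac_apply_of_mem hmem

end Vale.Agent.P165
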