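import Vale.Agent.P165.Finite
import Vale.Agent.P165.Perc

/-!
# Every finite set has at least one expected open exit
-/

namespace Vale.Agent.P165

open Finset

variable {V ι : Type} [DecidableEq V] [Fintype ι] {G : SimpleGraph V} {nb : V → ι → V}

omit [Fintype ι] in
theorem exists_labels (hl : Labelling G nb) {η : Finset (Sym2 V)}
    (hη : ↑η ⊆ G.edgeSet) {v z : V}
    (w : (SimpleGraph.fromEdgeSet (η : Set (Sym2 V))).Walk v z) : ∃ e : Fin w.length → ι,
      endV nb w.length e v = z ∧ edgesV nb w.length e v = w.edges.toFinset := by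
  induction w with
  | nil => exact ⟨fun i => i.elim0, rfl, by simp [edgesV]⟩
  | @cons u v z hadj w ih =>
    obtain ⟨e, he, hed⟩ := ih
    have hG : G.Adj u v := hη ((SimpleGraph.fromEdgeSet_adj _).1 hadj).1
    obtain ⟨a, ha⟩ := (hl.adj u v).1 hG
    refine ⟨Fin.cons a e, ?_, ?_⟩
    · show endV nb (w.length + 1) (Fin.cons a e) u = z
      rw [endV, Fin.tail_cons, Fin.cons_zero, ha]
      exact he
    · show edgesV nb (w.length + 1) (Fin.cons a e) u = _
      rw [edgesV, Fin.tail_cons, Fin.cons_zero, ha]
      exact (congrArg (insert s(u, v)) hed).trans (List.toFinset_cons).symm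

omit [DecidableEq V] [Fintype ι] in
open Classical in
theorem first_hit {η : Finset (Sym2 V)} (P : Set V) {u x : V}
    (q : (SimpleGraph.fromEdgeSet (η : Set (Sym2 V))).Walk u x) (hx : x ∈ P) :
    ∃ w ∈ P, cl (η.filter fun e => ∃ v ∈ e, v ∉ P) u w := by
  induction q with
  | nil => exact ⟨_, hx, SimpleGraph.Reachable.refl _⟩
  | @cons u v z hadj q ih =>
    by_cases hu : u ∈ P
    · exact ⟨u, hu, SimpleGraph.Reachable.refl _⟩
    obtain ⟨w, hw, hvw⟩ := ih hx
    obtain ⟨h1, h2⟩ := (SimpleGraph.fromEdgeSet_adj _).1 hadj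
    refine ⟨w, hw, SimpleGraph.Reachable.trans (cl_edge h2 (mem_filter.2 ⟨h1, u, ?_, hu⟩)) hvw⟩
    exact Sym2.mem_mk_left u v

omit [Fintype ι] in
/-- The last edge of a simple path is the only edge at its end that can be pivotal. -/
theorem off_edge {η : Finset (Sym2 V)} {o y : V}
    (π : (SimpleGraph.fromEdgeSet (η : Set (Sym2 V))).Walk o y) {e : Sym2 V} (he : e ∉ π.edges) :
    cl (η \ {e}) o y :=
  cl_of_walk π fun f hf => mem_sdiff.2
    ⟨by
      have := π.edges_subset_edgeSet hf
      rw [SimpleGraph.edgeSet_fromEdgeSet] at this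
      exact this.1, fun h => he (mem_singleton.1 h ▸ hf)⟩

omit [DecidableEq V] [Fintype ι] in
theorem path_last {η : Finset (Sym2 V)} {o y : V}
    (π : (SimpleGraph.fromEdgeSet (η : Set (Sym2 V))).Walk o y) (hπ : π.IsPath) {u u' : V}
    (h : s(u, y) ∈ π.edges) (h' : s(u', y) ∈ π.edges) : u = u' := by
  induction π with
  | nil => simp at h
  | @cons a b c hadj q ih =>
    rw [SimpleGraph.Walk.cons_isPath_iff] at hπ
    rw [SimpleGraph.Walk.edges_cons, List.mem_cons] at h h'
    have hne : a ≠ c := fun hac => hπ.2 (hac ▸ q.end_mem_support)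
    rcases h with h | h <;> rcases h' with h' | h'
    · rcases Sym2.eq_iff.1 h with ⟨e1, -⟩ | ⟨-, e2⟩
      · rcases Sym2.eq_iff.1 h' with ⟨e3, -⟩ | ⟨-, e4⟩
        · exact e1.trans e3.symm
        · exact absurd e4.symm hne
      · exact absurd e2.symm hne
    · -- the first edge ends at `c`, so the rest of the path is trivial
      have hbc : c = b := by
        rcases Sym2.eq_iff.1 h with ⟨-, e2⟩ | ⟨-, e2⟩
        · exact e2
        · exact absurd e2.symm hne
      subst hbc
      have := hπ.1
      rw [SimpleGraph.Walk.isPath_iff_eq_nil] at this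
      simp [this] at h'
    · have hbc : c = b := by
        rcases Sym2.eq_iff.1 h' with ⟨-, e2⟩ | ⟨-, e2⟩
        · exact e2
        · exact absurd e2.symm hne
      subst hbc
      have := hπ.1
      rw [SimpleGraph.Walk.isPath_iff_eq_nil] at this
      simp [this] at h
    · exact ih hπ.1 h h'

open Classical in
/-- Every finite set has at least one expected open exit. -/
theorem phiIn_ge_one (hl : Labelling G nb) {p δ : ℝ} (h0 : 0 ≤ p) (h1 : p ≤ 1)
    (hδ : ∀ (w : V) (N : ℕ),
      ∑ i ∈ range N, ∑ j ∈ range N, p ^ (i + j + 1) * walkCount nb (i + j + 1) w w ≤ δ)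
    (ha : 1 + δ + p ≤ p * Fintype.card ι) (T : Finset V) {o : V} (ho : o ∈ T) :
    1 ≤ phiIn nb T p o := by
  set E := inE nb T with hE
  have hEG : ↑E ⊆ G.edgeSet := fun e he => touch_adj hl.listing (mem_filter.1 he).1
  have hwT : ∀ {η : Finset (Sym2 V)}, η ⊆ E → ∀ {u v : V}, u ∈ T →
      ∀ (w : (SimpleGraph.fromEdgeSet (η : Set (Sym2 V))).Walk u v), ∀ z ∈ w.support, z ∈ T := by
    intro η hη u v hu w
    induction w with
    | nil => intro z hz; rw [SimpleGraph.Walk.support_nil, List.mem_singleton] at hz; exact hz ▸ hu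
    | @cons a b c hadj q ih =>
      intro z hz
      rw [SimpleGraph.Walk.support_cons, List.mem_cons] at hz
      rcases hz with rfl | hz
      · exact hu
      · exact ih (inE_mem (hη ((SimpleGraph.fromEdgeSet_adj _).1 hadj).1) (Sym2.mem_mk_right a b)) z hz
  let τ : V → ℝ := fun x => tauIn nb T p o x
  have hτ0 : ∀ x, 0 ≤ τ x := fun x => sum_nonneg fun η _ => mul_nonneg (wt_nonneg _ h0 h1 η) (by
    show (0 : ℝ) ≤ if _ then _ else _
    split_ifs <;> norm_num)
  let near : Finset (Sym2 V) → V → ι → ℝ := fun η x a =>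
    if nb x a ∈ T ∧ s(x, nb x a) ∈ η ∧ cl (η \ {s(x, nb x a)}) o x then 1 else 0
  let piv : Finset (Sym2 V) → V → ι → ℝ := fun η x a =>
    if nb x a ∈ T ∧ cl η o x ∧ ¬ cl (η \ {s(x, nb x a)}) o x then 1 else 0
  let both : Finset (Sym2 V) → V → ι → ℝ := fun η x a =>
    if nb x a ∈ T ∧ s(x, nb x a) ∈ η ∧ cl (η \ {s(x, nb x a)}) o x
      ∧ cl (η \ {s(x, nb x a)}) o (nb x a) then 1 else 0
  -- one-edge identity
  have hone : ∀ x ∈ T, ∀ a, (if nb x a ∈ T then p * τ x else 0)
      = avg E p (fun η => near η x a) + p * avg E p (fun η => piv η x a) := by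
    intro x hx a
    by_cases hy : nb x a ∈ T
    swap
    · simp [near, piv, hy, avg]
    have heE : ({s(x, nb x a)} : Finset (Sym2 V)) ⊆ E :=
      singleton_subset_iff.2 (mem_inE hl hx hy (hl.adj_nb x a))
    set e : Sym2 V := s(x, nb x a) with he
    let g : Finset (Sym2 V) → ℝ := fun η => if cl η o x then 1 else 0
    have e1 : avg E p (fun η => near η x a) = p * avg (E \ {e}) p g := by
      have := avg_forced heE p g
      rw [card_singleton, pow_one] at this
      rw [← this]
      refine avg_congr E p fun η _ => ?_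
      simp only [near, g, hy, true_and, singleton_subset_iff, ← he]
      by_cases h : e ∈ η <;> simp [h]
    have e2 : avg (E \ {e}) p g = avg E p (fun η => g (η \ {e})) := by
      have := avg_split heE p (fun _ => (1 : ℝ)) g
      simp only [one_mul, avg_one] at this
      exact this.symm
    rw [if_pos hy, e1, e2, ← mul_add, ← avg_add]
    congr 1
    refine avg_congr E p fun η _ => ?_
    simp only [g, piv, hy, true_and, ← he]
    by_cases h : cl η o x
    · by_cases h' : cl (η \ {e}) o x <;> simp [h, h']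
    · have : ¬ cl (η \ {e}) o x := fun hc => h (cl_mono sdiff_subset hc)
      simp [h, this]
  -- at most one pivotal edge at each end
  have hpiv : ∀ η, ∀ x ∈ T, ∑ a, piv η x a ≤ if cl η o x then 1 else 0 := by
    intro η x _
    simp only [piv]
    rw [sum_boole]
    by_cases h : cl η o x
    swap
    · simp [h]
    rw [if_pos h]
    obtain ⟨π, hπ⟩ := SimpleGraph.Reachable.exists_isPath h
    refine le_trans (Nat.cast_le.2 (card_le_one.2 ?_)) (le_of_eq Nat.cast_one)
    intro a ha b hb
    obtain ⟨-, -, -, ha⟩ := mem_filter.1 ha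
    obtain ⟨-, -, -, hb⟩ := mem_filter.1 hb
    have ha' : s(nb x a, x) ∈ π.edges := by
      rw [Sym2.eq_swap]; by_contra hc; exact ha (off_edge π hc)
    have hb' : s(nb x b, x) ∈ π.edges := by
      rw [Sym2.eq_swap]; by_contra hc; exact hb (off_edge π hc)
    exact hl.inj x (path_last π hπ ha' hb')
  -- edges against vertices
  have hN : ∀ η, η ⊆ E → ∑ x ∈ T, ∑ a, near η x a
      ≤ (∑ y ∈ T, if cl η o y then (1 : ℝ) else 0) - 1 + ∑ x ∈ T, ∑ a, both η x a := by
    intro η hη
    let single : V → ι → Prop := fun x a => nb x a ∈ T ∧ s(x, nb x a) ∈ η ∧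
      cl (η \ {s(x, nb x a)}) o x ∧ ¬ cl (η \ {s(x, nb x a)}) o (nb x a)
    have hsplit : ∀ x a, near η x a = (if single x a then 1 else 0) + both η x a := by
      intro x a
      simp only [near, both, single]
      by_cases h : cl (η \ {s(x, nb x a)}) o (nb x a) <;> simp [h]
    simp only [hsplit, sum_add_distrib]
    refine add_le_add ?_ le_rfl
    have hsub : (∑ y ∈ T, if cl η o y then (1 : ℝ) else 0) - 1
        = (((T.erase o).filter fun y => cl η o y).card : ℝ) := by
      rw [← add_sum_erase T _ ho, if_pos (show cl η o o from SimpleGraph.Reachable.refl o), sum_boole]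
      ring
    rw [hsub, ← sum_product', sum_boole]
    refine Nat.cast_le.2 (card_le_card_of_injOn (fun q => nb q.1 q.2) ?_ ?_)
    · intro q hq
      simp only [coe_filter, Set.mem_ofPred_eq, mem_product, mem_univ, and_true, single] at hq
      obtain ⟨-, hy, he, hx, hny⟩ := hq
      refine mem_filter.2 ⟨mem_erase.2 ⟨fun h => hny (h ▸ SimpleGraph.Reachable.refl _), hy⟩, ?_⟩
      exact (cl_mono sdiff_subset hx).trans (cl_edge (hl.adj_nb _ _).ne he)
    · intro q hq q' hq' heq
      simp only [coe_filter, Set.mem_ofPred_eq, mem_product, mem_univ, and_true, single] at hq hq'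
      obtain ⟨-, hy, he, hx, hny⟩ := hq
      obtain ⟨-, -, -, -, hny'⟩ := hq'
      have hoy : cl η o (nb q.1 q.2) :=
        (cl_mono sdiff_subset hx).trans (cl_edge (hl.adj_nb _ _).ne he)
      obtain ⟨π, hπ⟩ := SimpleGraph.Reachable.exists_isPath hoy
      simp only at heq
      have h1 : s(q.1, nb q.1 q.2) ∈ π.edges := by
        by_contra hc; exact hny (off_edge π hc)
      have h2 : s(q'.1, nb q.1 q.2) ∈ π.edges := by
        rw [← heq] at hny'
        by_contra hc; exact hny' (off_edge π hc)
      have hxx : q.1 = q'.1 := path_last π hπ h1 h2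
      obtain ⟨x, a⟩ := q
      obtain ⟨x', b⟩ := q'
      simp only at hxx heq
      subst hxx
      rw [hl.inj x heq]
  -- closed walks
  set N := T.card + 1 with hNdef
  let F : V → ι → V → (i j : ℕ) → (Fin j → ι) → (Fin i → ι) → Finset (Sym2 V) :=
    fun x a w i j e1 e2 =>
      insert s(x, nb x a) (edgesV nb j e1 (nb x a) ∪ edgesV nb i e2 w)
  let term : Finset (Sym2 V) → V → ι → V → (i j : ℕ) → (Fin j → ι) → (Fin i → ι) → ℝ :=
    fun η x a w i j e1 e2 =>
      if endV nb j e1 (nb x a) = w ∧ endV nb i e2 w = x then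
        (if (F x a w i j e1 e2).card = i + j + 1 then
          (if F x a w i j e1 e2 ⊆ η then (if cl (η \ F x a w i j e1 e2) o w then 1 else 0) else 0)
        else 0)
      else 0
  have hterm0 : ∀ η x a w i j e1 e2, 0 ≤ term η x a w i j e1 e2 := fun η x a w i j e1 e2 => by
    simp only [term]; split_ifs <;> norm_num
  have hboth : ∀ η, η ⊆ E → ∀ x ∈ T, ∀ a, both η x a
      ≤ ∑ w ∈ T, ∑ i ∈ range N, ∑ j ∈ range N, ∑ e1, ∑ e2, term η x a w i j e1 e2 := by
    intro η hη x hxT a
    simp only [both]
    split_ifs with h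
    swap
    · exact sum_nonneg fun w _ => sum_nonneg fun i _ => sum_nonneg fun j _ =>
        sum_nonneg fun e1 _ => sum_nonneg fun e2 _ => hterm0 _ _ _ _ _ _ _ _
    obtain ⟨hy, he, hx, hoy⟩ := h
    set e : Sym2 V := s(x, nb x a) with hedef
    set η' := η \ {e} with hη'
    obtain ⟨π, hπ⟩ := SimpleGraph.Reachable.exists_isPath
      (show cl η' (nb x a) x from hoy.symm.trans hx)
    obtain ⟨q⟩ := hx
    obtain ⟨w, hw, how⟩ := first_hit {v | v ∈ π.support} q π.end_mem_support
    have hwπ : w ∈ π.support := hw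
    have hη'G : ↑η' ⊆ G.edgeSet := fun f hf => hEG (hη (sdiff_subset hf))
    set π1 := π.takeUntil w hwπ
    set π2 := π.dropUntil w hwπ
    obtain ⟨e1, he1, hed1⟩ := exists_labels hl hη'G π1
    obtain ⟨e2, he2, hed2⟩ := exists_labels hl hη'G π2
    have hedges : π.edges = π1.edges ++ π2.edges := by
      rw [← SimpleGraph.Walk.edges_append]; simp [π1, π2]
    have hmem : ∀ f ∈ π.edges, f ∈ η' := fun f hf => by
      have := π.edges_subset_edgeSet hf
      rw [SimpleGraph.edgeSet_fromEdgeSet] at this
      exact this.1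
    have heπ : e ∉ π.edges := fun h => (mem_sdiff.1 (hmem e h)).2 (mem_singleton_self e)
    have hFe : F x a w π2.length π1.length e1 e2 = insert e π.edges.toFinset := by
      simp only [F, hed1, hed2, ← hedef, hedges, List.toFinset_append]
    have hlen : π1.length + π2.length = π.length := by
      rw [← SimpleGraph.Walk.length_append]; simp [π1, π2]
    have hπT : π.length < N := by
      have hsub : π.support.toFinset ⊆ T := fun z hz =>
        hwT (sdiff_subset.trans hη) hy π z (List.mem_toFinset.1 hz)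
      have := card_le_card hsub
      rw [List.toFinset_card_of_nodup hπ.support_nodup, SimpleGraph.Walk.length_support] at this
      omega
    have hcard : (F x a w π2.length π1.length e1 e2).card = π2.length + π1.length + 1 := by
      rw [hFe, card_insert_of_notMem (by simpa using heπ),
        List.toFinset_card_of_nodup hπ.isTrail.edges_nodup, SimpleGraph.Walk.length_edges]
      omega
    have hsubF : F x a w π2.length π1.length e1 e2 ⊆ η := by
      rw [hFe]
      exact insert_subset he fun f hf => sdiff_subset (hmem f (List.mem_toFinset.1 hf))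
    have hclF : cl (η \ F x a w π2.length π1.length e1 e2) o w := by
      refine cl_mono ?_ how
      intro f hf
      obtain ⟨hf1, v, hv, hvP⟩ := mem_filter.1 hf
      refine mem_sdiff.2 ⟨sdiff_subset hf1, fun hF => hvP ?_⟩
      rw [hFe, mem_insert] at hF
      rcases hF with rfl | hF
      · rcases Sym2.mem_iff.1 hv with rfl | rfl
        · exact π.end_mem_support
        · exact π.start_mem_support
      · exact SimpleGraph.Walk.mem_support_of_mem_edges (List.mem_toFinset.1 hF) hv
    have hwT' : w ∈ T := hwT (sdiff_subset.trans hη) hy π w hwπ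
    have hval : term η x a w π2.length π1.length e1 e2 = 1 := by
      simp only [term, if_pos (And.intro he1 he2), if_pos hcard, if_pos hsubF, if_pos hclF]
    have n1 : π1.length ∈ range N := mem_range.2 (by omega)
    have n2 : π2.length ∈ range N := mem_range.2 (by omega)
    calc (1 : ℝ) = term η x a w π2.length π1.length e1 e2 := hval.symm
      _ ≤ ∑ e2', term η x a w π2.length π1.length e1 e2' :=
          single_le_sum (fun c _ => hterm0 _ _ _ _ _ _ _ c) (mem_univ e2)
      _ ≤ ∑ e1', ∑ e2', term η x a w π2.length π1.length e1' e2' :=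
          single_le_sum (f := fun e1' => ∑ e2', term η x a w π2.length π1.length e1' e2')
            (fun c _ => sum_nonneg fun d _ => hterm0 _ _ _ _ _ _ c d) (mem_univ e1)
      _ ≤ ∑ j ∈ range N, ∑ e1', ∑ e2', term η x a w π2.length j e1' e2' :=
          single_le_sum (f := fun j => ∑ e1', ∑ e2', term η x a w π2.length j e1' e2')
            (fun j _ => sum_nonneg fun c _ => sum_nonneg fun d _ => hterm0 _ _ _ _ _ _ c d) n1
      _ ≤ ∑ i ∈ range N, ∑ j ∈ range N, ∑ e1', ∑ e2', term η x a w i j e1' e2' :=
          single_le_sum (f := fun i => ∑ j ∈ range N, ∑ e1', ∑ e2', term η x a w i j e1' e2')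
            (fun i _ => sum_nonneg fun j _ => sum_nonneg fun c _ => sum_nonneg fun d _ =>
              hterm0 _ _ _ _ _ _ c d) n2
      _ ≤ _ :=
          single_le_sum (f := fun w => ∑ i ∈ range N, ∑ j ∈ range N, ∑ e1', ∑ e2',
              term η x a w i j e1' e2')
            (fun w _ => sum_nonneg fun i _ => sum_nonneg fun j _ => sum_nonneg fun c _ =>
              sum_nonneg fun d _ => hterm0 _ _ _ _ _ _ c d) hwT'
  have hterm_avg : ∀ x a w i j e1 e2, avg E p (fun η => term η x a w i j e1 e2)
      ≤ (if endV nb j e1 (nb x a) = w then 1 else 0) * (if endV nb i e2 w = x then 1 else 0)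
        * (p ^ (i + j + 1) * τ w) := by
    intro x a w i j e1 e2
    by_cases h : endV nb j e1 (nb x a) = w ∧ endV nb i e2 w = x
    swap
    · rw [not_and_or] at h
      rcases h with h | h <;> simp [term, h, avg]
    simp only [if_pos h.1, if_pos h.2, one_mul]
    have hrhs : 0 ≤ p ^ (i + j + 1) * τ w := mul_nonneg (pow_nonneg h0 _) (hτ0 w)
    set Fs := F x a w i j e1 e2 with hFs
    by_cases hc : Fs.card = i + j + 1
    swap
    · simpa [term, h, ← hFs, hc, avg] using hrhs
    by_cases hF : Fs ⊆ E
    swap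
    · refine le_trans (le_of_eq ?_) hrhs
      refine sum_eq_zero fun η hη => ?_
      simp only [term, if_pos h, ← hFs, if_pos hc]
      rw [if_neg fun hs => hF (hs.trans (mem_powerset.1 hη)), mul_zero]
    let g : Finset (Sym2 V) → ℝ := fun η => if cl η o w then 1 else 0
    have : avg E p (fun η => term η x a w i j e1 e2) = p ^ Fs.card * avg (E \ Fs) p g := by
      rw [← avg_forced hF p g]
      refine avg_congr E p fun η _ => ?_
      simp only [term, g, if_pos h, ← hFs, if_pos hc]
    rw [this, hc]
    refine mul_le_mul_of_nonneg_left (avg_sdiff_le hF h0 h1 fun η _ => ?_) (pow_nonneg h0 _)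
    simp only [g]
    by_cases hh : cl (η \ Fs) o w
    · rw [if_pos hh, if_pos (cl_mono sdiff_subset hh)]
    · rw [if_neg hh]; split_ifs <;> norm_num
  set χ := ∑ x ∈ T, τ x with hχ
  have hχ1 : 1 ≤ χ := by
    refine le_trans (le_of_eq ?_) (single_le_sum (fun x _ => hτ0 x) ho)
    refine (avg_one E p).symm.trans (avg_congr E p fun η _ => ?_)
    rw [if_pos (show cl η o o from SimpleGraph.Reachable.refl o)]
  have hZ : avg E p (fun η => ∑ x ∈ T, ∑ a, both η x a) ≤ δ * χ := by
    refine (avg_mono E h0 h1 fun η hη => sum_le_sum fun x hx => sum_le_sum fun a _ =>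
      hboth η hη x hx a).trans ?_
    simp only [avg_sum]
    refine (sum_le_sum fun x _ => sum_le_sum fun a _ => sum_le_sum fun w _ => sum_le_sum fun i _ =>
      sum_le_sum fun j _ => sum_le_sum fun e1 _ => sum_le_sum fun e2 _ =>
        hterm_avg x a w i j e1 e2).trans ?_
    simp only [← sum_mul, ← mul_sum, sum_boole, card_endV]
    rw [mul_sum, sum_congr rfl fun x _ => sum_comm, sum_comm]
    refine sum_le_sum fun w _ => ?_
    rw [sum_congr rfl fun x _ => sum_comm, sum_comm]
    refine le_trans ?_ (mul_le_mul_of_nonneg_right (hδ w N) (hτ0 w))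
    rw [sum_mul]
    refine sum_le_sum fun i _ => ?_
    rw [sum_congr rfl fun x _ => sum_comm, sum_comm, sum_mul]
    refine sum_le_sum fun j _ => ?_
    simp only [← sum_mul]
    have key := sum_walkCount_le nb T w (j + 1) i w
    simp only [walkCount, mul_sum] at key
    calc (∑ x ∈ T, (∑ a, walkCount nb j w (nb x a)) * walkCount nb i x w) * (p ^ (i + j + 1) * τ w)
        ≤ walkCount nb (i + (j + 1)) w w * (p ^ (i + j + 1) * τ w) := by
          refine mul_le_mul_of_nonneg_right (le_trans (le_of_eq ?_) key)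
            (mul_nonneg (pow_nonneg h0 _) (hτ0 w))
          refine sum_congr rfl fun x _ => ?_
          rw [sum_mul]
          exact sum_congr rfl fun a _ => mul_comm _ _
      _ = _ := by rw [← Nat.add_assoc]; ring
  have hPtot : avg E p (fun η => ∑ x ∈ T, ∑ a, piv η x a) ≤ χ := by
    simp only [avg_sum, hχ]
    refine sum_le_sum fun x hx => ?_
    rw [← avg_sum]
    exact avg_mono E h0 h1 fun η _ => hpiv η x hx
  have hNtot : avg E p (fun η => ∑ x ∈ T, ∑ a, near η x a) ≤ χ - 1 + δ * χ := by
    refine (avg_mono E h0 h1 hN).trans ?_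
    rw [avg_add]
    refine add_le_add (le_of_eq ?_) hZ
    simp only [sub_eq_add_neg]
    rw [avg_add, avg_sum]
    congr 1
    rw [show (fun _ : Finset (Sym2 V) => -(1 : ℝ)) = fun η => (-1) * (fun _ => (1 : ℝ)) η by
      funext η; ring, avg_mul, avg_one, mul_one]
  have hin : ∑ x ∈ T, ∑ a, (if nb x a ∈ T then p * τ x else 0)
      = avg E p (fun η => ∑ x ∈ T, ∑ a, near η x a)
        + p * avg E p (fun η => ∑ x ∈ T, ∑ a, piv η x a) := by
    simp only [avg_sum, mul_sum, ← sum_add_distrib]
    exact sum_congr rfl fun x hx => sum_congr rfl fun a _ => hone x hx a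
  have hphi : phiIn nb T p o = p * Fintype.card ι * χ
      - ∑ x ∈ T, ∑ a, (if nb x a ∈ T then p * τ x else 0) := by
    simp only [phiIn, hχ, mul_sum, ← sum_sub_distrib]
    refine sum_congr rfl fun x _ => ?_
    rw [show p * (Fintype.card ι : ℝ) * τ x = ∑ _a : ι, p * τ x by
      rw [sum_const, card_univ, nsmul_eq_mul]; ring, ← sum_sub_distrib]
    refine sum_congr rfl fun a _ => ?_
    by_cases h : nb x a ∈ T <;> simp [h, τ]
  rw [hphi, hin]
  have h5 := mul_le_mul_of_nonneg_left hPtot h0
  have h6 : (1 + δ + p) * χ ≤ p * Fintype.card ι * χ :=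
    mul_le_mul_of_nonneg_right ha (le_trans zero_le_one hχ1)
  linarith

end Vale.Agent.P165
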