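import Mathlib

/-!
# Bernoulli bond percolation and Cartesian products: definitions for P165
-/

namespace Vale.Agent.P165

open MeasureTheory ProbabilityTheory

/-- The Cartesian product of finitely many graphs: two vertices are adjacent when they
differ in exactly one coordinate, along an edge of that coordinate's graph. -/
def prodGraph {I : Type} {V : I → Type} (G : ∀ i, SimpleGraph (V i)) :
    SimpleGraph (∀ i, V i) where
  Adj x y := ∃ i, (G i).Adj (x i) (y i) ∧ ∀ j, j ≠ i → x j = y j
  symm := ⟨fun _ _ ⟨i, h, h'⟩ => ⟨i, h.symm, fun j hj => (h' j hj).symm⟩⟩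
  loopless := ⟨fun _ ⟨_, h, _⟩ => h.ne rfl⟩

variable {V : Type}

/-- Percolation configurations: a truth value (open) at each edge. -/
abbrev Config (G : SimpleGraph V) : Type := G.edgeSet → Bool

/-- The open subgraph. -/
def openGraph (G : SimpleGraph V) (ω : Config G) : SimpleGraph V where
  Adj u v := ∃ h : G.Adj u v, ω ⟨s(u, v), h⟩ = true
  symm := ⟨fun u v ⟨h, h'⟩ => ⟨h.symm, by
    have : (⟨s(v, u), h.symm⟩ : G.edgeSet) = ⟨s(u, v), h⟩ := Subtype.ext Sym2.eq_swap
    rw [this]; exact h'⟩⟩
  loopless := ⟨fun _ ⟨h, _⟩ => h.ne rfl⟩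

/-- Bernoulli bond percolation: each edge is open with probability `p`, independently. -/
noncomputable def perc (G : SimpleGraph V) (p : unitInterval) : Measure (Config G) :=
  Measure.infinitePi fun _ => bernoulliMeasure true false p

/-- The infinite clusters. -/
def infClusters (G : SimpleGraph V) (ω : Config G) : Set (openGraph G ω).ConnectedComponent :=
  {c | c.supp.Infinite}

/-- There is an infinite cluster. -/
def hasInfinite (G : SimpleGraph V) : Set (Config G) :=
  {ω | (infClusters G ω).Nonempty}

/-- There is exactly one infinite cluster. -/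
def uniqueInfinite (G : SimpleGraph V) : Set (Config G) :=
  {ω | ∃! c, c ∈ infClusters G ω}

/-- The percolation threshold. -/
noncomputable def pc (G : SimpleGraph V) : ℝ :=
  sInf (Subtype.val '' {p : unitInterval | 0 < perc G p (hasInfinite G)})

/-- The uniqueness threshold. -/
noncomputable def pu (G : SimpleGraph V) : ℝ :=
  sInf (Subtype.val '' {p : unitInterval | perc G p (uniqueInfinite G) = 1})

/-- Finitely many orbits of the automorphism group. -/
def QuasiTransitive (G : SimpleGraph V) : Prop :=
  ∃ R : Finset V, ∀ v, ∃ φ : G ≃g G, φ v ∈ R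

/-- The outer vertex boundary. -/
def vertexBoundary (G : SimpleGraph V) (A : Finset V) : Set V :=
  {v | v ∉ A ∧ ∃ u ∈ A, G.Adj u v}

/-- Every finite set has outer vertex boundary at least `h` times its size. -/
def Expands (G : SimpleGraph V) (h : ℝ) : Prop :=
  ∀ A : Finset V, h * (A.card : ℝ) ≤ ((vertexBoundary G A).ncard : ℝ)

/-- The edge boundary, each edge oriented away from the set. -/
def edgeBoundary (G : SimpleGraph V) (A : Finset V) : Set (V × V) :=
  {q | q.1 ∈ A ∧ q.2 ∉ A ∧ G.Adj q.1 q.2}

/-- Every finite set has edge boundary at least `h` times its size. -/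
def EdgeExpands (G : SimpleGraph V) (h : ℝ) : Prop :=
  ∀ A : Finset V, h * (A.card : ℝ) ≤ ((edgeBoundary G A).ncard : ℝ)

end Vale.Agent.P165
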