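import Vale.Agent.P165.Spectral

/-!
# Cartesian products of expanding quasi-transitive graphs
-/

namespace Vale.Agent.P165

open Finset

variable {V : Type}

theorem exists_labelling (G : SimpleGraph V) (d : ℕ) (hd : ∀ v, (G.neighborSet v).encard = d) :
    ∃ nb : V → Fin d → V, Labelling G nb := by
  classical
  have hfin : ∀ v, (G.neighborSet v).Finite := fun v =>
    Set.finite_of_encard_eq_coe (hd v)
  have hcard : ∀ v, (hfin v).toFinset.card = d := fun v => by
    have := (hfin v).encard_eq_coe_toFinset_card
    rw [hd v] at this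
    exact_mod_cast this.symm
  let e : ∀ v, Fin d ≃ (hfin v).toFinset := fun v =>
    ((hfin v).toFinset.equivFinOfCardEq (hcard v)).symm
  refine ⟨fun v a => ((e v a : (hfin v).toFinset) : V), ⟨fun v => ?_, fun u v => ?_⟩⟩
  · exact Subtype.val_injective.comp (e v).injective
  · constructor
    · intro h
      exact ⟨(e u).symm ⟨v, (hfin u).mem_toFinset.2 h⟩, by simp⟩
    · rintro ⟨a, rfl⟩
      exact (hfin u).mem_toFinset.1 (e u a).2

variable [DecidableEq V] {ι : Type} [Fintype ι] {G : SimpleGraph V} {nb : V → ι → V}

theorem boundary_card_le (hl : Labelling G nb) {h : ℝ} (he : Expands G h) (v : V) :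
    h ≤ Fintype.card ι := by
  classical
  have h1 := he {v}
  rw [card_singleton, Nat.cast_one, mul_one] at h1
  refine h1.trans ?_
  have hsub : vertexBoundary G {v} ⊆ ↑(univ.image (nb v)) := by
    rintro w ⟨-, u, hu, huw⟩
    rw [mem_singleton] at hu
    subst hu
    obtain ⟨a, ha⟩ := (hl.adj u w).1 huw
    rw [coe_image]; exact ⟨a, by simp, ha⟩
  have := Set.ncard_le_ncard hsub (finite_toSet _)
  rw [Set.ncard_coe_finset] at this
  exact_mod_cast this.trans (card_image_le.trans (by simp))

omit [DecidableEq V] in
theorem infinite_of_expands {G : SimpleGraph V} {h : ℝ} (hh : 0 < h) (hc : G.Connected)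
    (he : Expands G h) : Infinite V := by
  by_contra hinf
  rw [not_infinite_iff_finite] at hinf
  have := Fintype.ofFinite V
  have h1 := he univ
  have h0 : vertexBoundary G (univ : Finset V) = ∅ :=
    Set.eq_empty_of_forall_notMem fun v hv => hv.1 (mem_univ v)
  rw [h0, Set.ncard_empty, Nat.cast_zero] at h1
  have := hc.nonempty
  have : (0 : ℝ) < ((univ : Finset V).card : ℝ) := by exact_mod_cast univ_nonempty.card_pos
  nlinarith

/-- An infinite connected graph with finitely many neighbours has a geodesic ray from every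
vertex. -/
theorem exists_ray (hl : Labelling G nb) (hc : G.Connected) [Infinite V] (v : V) :
    ∃ r : ℕ → V, r 0 = v ∧ Function.Injective r ∧ ∀ j, G.Adj (r j) (r (j + 1)) := by
  classical
  let far : V → Set V := fun u => {y | G.dist v y = G.dist v u + G.dist u y}
  have hstep : ∀ u, (far u).Infinite →
      ∃ w, G.Adj u w ∧ G.dist v w = G.dist v u + 1 ∧ (far w).Infinite := by
    intro u hu
    have hcov : far u ⊆ {u} ∪ ⋃ a, {y ∈ far (nb u a) | G.dist v (nb u a) = G.dist v u + 1} := by
      intro y hy
      by_cases hyu : y = u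
      · exact Or.inl hyu
      refine Or.inr (Set.mem_iUnion.2 ?_)
      obtain ⟨w, hw⟩ := hc.exists_walk_length_eq_dist u y
      cases w with
      | nil => exact absurd rfl hyu
      | @cons _ z _ hadj q =>
        obtain ⟨a, ha⟩ := (hl.adj u z).1 hadj
        subst ha
        rw [SimpleGraph.Walk.length_cons] at hw
        have h1 : G.dist (nb u a) y ≤ q.length := SimpleGraph.dist_le q
        have h2 := hc.dist_triangle (u := v) (v := nb u a) (w := y)
        have h3 := hc.dist_triangle (u := v) (v := u) (w := nb u a)
        have h4 : G.dist u (nb u a) = 1 := SimpleGraph.dist_eq_one_iff_adj.2 hadj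
        have h5 : G.dist v y = G.dist v u + G.dist u y := hy
        exact ⟨a, ⟨show G.dist v y = G.dist v (nb u a) + G.dist (nb u a) y by omega, by omega⟩⟩
    by_contra hno
    push Not at hno
    refine hu (Set.Finite.subset ((Set.finite_singleton u).union (Set.finite_iUnion fun a => ?_)) hcov)
    by_cases ha : G.dist v (nb u a) = G.dist v u + 1
    · exact (hno _ (hl.adj_nb u a) ha).subset fun y hy => hy.1
    · exact Set.finite_empty.subset fun y hy => ha hy.2
  have h0 : (far v).Infinite := by
    have : far v = Set.univ := Set.eq_univ_of_forall fun y => by simp [far]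
    rw [this]; exact Set.infinite_univ
  choose nx hadj hdist hinf using hstep
  let r : ℕ → {u // (far u).Infinite} := fun n =>
    Nat.rec ⟨v, h0⟩ (fun _ u => ⟨nx u.1 u.2, hinf u.1 u.2⟩) n
  have hd : ∀ n, G.dist v (r n).1 = n := by
    intro n
    induction n with
    | zero => simp [r]
    | succ n ih =>
      show G.dist v (nx (r n).1 (r n).2) = n + 1
      rw [hdist, ih]
  exact ⟨fun n => (r n).1, rfl, fun a b h => by rw [← hd a, ← hd b]; exact congrArg _ h,
    fun j => hadj _ _⟩

variable {I : Type} [DecidableEq I] {W : I → Type} {H : ∀ i, SimpleGraph (W i)}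
  {ι : Type} {nbI : ∀ i, W i → ι → W i}

theorem labelling_prod (hl : ∀ i, Labelling (H i) (nbI i)) :
    Labelling (prodGraph H)
      (fun (x : ∀ i, W i) (q : I × ι) => Function.update x q.1 (nbI q.1 (x q.1) q.2)) := by
  refine ⟨fun x => ?_, fun x y => ?_⟩
  · rintro ⟨i, a⟩ ⟨j, b⟩ h
    have hij : i = j := by
      by_contra hne
      have h1 := congrFun h i
      simp only [Function.update_self, Function.update_of_ne hne] at h1
      exact ((hl i).adj_nb _ a).ne h1.symm
    subst hij
    have h1 := congrFun h i
    simp only [Function.update_self] at h1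
    rw [(hl i).inj _ h1]
  · constructor
    · rintro ⟨i, hadj, hrest⟩
      obtain ⟨a, ha⟩ := ((hl i).adj _ _).1 hadj
      refine ⟨(i, a), funext fun j => ?_⟩
      by_cases hj : j = i
      · subst hj; simpa using ha
      · simp [hj, hrest j hj]
    · rintro ⟨⟨i, a⟩, rfl⟩
      exact ⟨i, by simpa using (hl i).adj_nb _ a, fun j hj => by simp [hj]⟩

theorem connected_prod [Fintype I] (hc : ∀ i, (H i).Connected) : (prodGraph H).Connected := by
  classical
  have : Nonempty (∀ i, W i) := ⟨fun i => (hc i).nonempty.some⟩
  refine ⟨fun x y => ?_⟩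
  have key : ∀ S : Finset I, (prodGraph H).Reachable x (S.piecewise y x) := by
    intro S
    induction S using Finset.induction with
    | empty => simp
    | @insert i S hi ih =>
      refine ih.trans ?_
      rw [piecewise_insert]
      let z := S.piecewise y x
      let f : H i →g prodGraph H :=
        { toFun := fun v => Function.update z i v
          map_rel' := fun {u v} h => ⟨i, by simpa using h, fun j hj => by simp [hj]⟩ }
      have h1 : (prodGraph H).Reachable (Function.update z i (z i)) (Function.update z i (y i)) :=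
        ((hc i).preconnected (z i) (y i)).map f
      rw [Function.update_eq_self] at h1
      exact h1
  simpa using key univ

theorem quasiTransitive_prod [Fintype I] (hq : ∀ i, QuasiTransitive (H i)) :
    QuasiTransitive (prodGraph H) := by
  classical
  choose R hR using hq
  refine ⟨Fintype.piFinset R, fun x => ?_⟩
  choose φ hφ using fun i => hR i (x i)
  refine ⟨{ toEquiv := Equiv.piCongrRight fun i => (φ i).toEquiv, map_rel_iff' := ?_ }, ?_⟩
  · intro u v
    show (∃ i, (H i).Adj (φ i (u i)) (φ i (v i)) ∧ ∀ j, j ≠ i → φ j (u j) = φ j (v j)) ↔ _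
    constructor
    · rintro ⟨i, h1, h2⟩
      exact ⟨i, (φ i).map_adj_iff.1 h1, fun j hj => (φ j).injective (h2 j hj)⟩
    · rintro ⟨i, h1, h2⟩
      exact ⟨i, (φ i).map_adj_iff.2 h1, fun j hj => congrArg _ (h2 j hj)⟩
  · exact Fintype.mem_piFinset.2 hφ

theorem expands_prod [Fintype I] [Nonempty I] [∀ i, DecidableEq (W i)] [Fintype ι]
    (hl : ∀ i, Labelling (H i) (nbI i)) (o : ∀ i, W i) {h : ℝ} (he : ∀ i, Expands (H i) h) :
    Expands (prodGraph H) h := by
  classical
  intro A
  obtain ⟨i⟩ := ‹Nonempty I›
  let key : (∀ j, W j) → (∀ j, W j) := fun x => Function.update x i (o i)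
  let fib : (∀ j, W j) → Finset (W i) := fun z =>
    (A.filter fun x => key x = z).image fun x => x i
  have hfinB : ∀ (j : I) (B : Finset (W j)), (vertexBoundary (H j) B).Finite := fun j B =>
    ((B ×ˢ (univ : Finset ι)).image fun q => nbI j q.1 q.2).finite_toSet.subset
      (by
        rintro w ⟨-, u, hu, huw⟩
        obtain ⟨a, ha⟩ := ((hl j).adj u w).1 huw
        exact mem_image.2 ⟨(u, a), by simp [hu], ha⟩)
  have hrec : ∀ x z, key x = z → Function.update z i (x i) = x := by
    intro x z hx; rw [← hx]; simp [key]
  let Z := A.image key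
  let img : (∀ j, W j) → Finset (∀ j, W j) := fun z =>
    ((hfinB i (fib z)).toFinset).image fun w => Function.update z i w
  have hsub : ↑(Z.biUnion img) ⊆ vertexBoundary (prodGraph H) A := by
    intro y hy
    simp only [mem_coe, mem_biUnion, img, mem_image, Set.Finite.mem_toFinset] at hy
    obtain ⟨z, hz, w, ⟨hw, u, hu, huw⟩, rfl⟩ := hy
    have hzi : z i = o i := by
      obtain ⟨x, -, rfl⟩ := mem_image.1 hz
      simp [key]
    refine ⟨fun hmem => hw (mem_image.2 ⟨_, mem_filter.2 ⟨hmem, ?_⟩, Function.update_self _ _ _⟩), ?_⟩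
    · show Function.update (Function.update z i w) i (o i) = z
      rw [Function.update_idem, ← hzi, Function.update_eq_self]
    · obtain ⟨x, hx, rfl⟩ := mem_image.1 hu
      obtain ⟨hxA, hxz⟩ := mem_filter.1 hx
      refine ⟨x, hxA, i, by simpa using huw, fun j hj => ?_⟩
      rw [Function.update_of_ne hj, ← hrec x z hxz, Function.update_of_ne hj]
  have hfinA : (vertexBoundary (prodGraph H) A).Finite :=
    ((A ×ˢ (univ : Finset (I × ι))).image fun q =>
      Function.update q.1 q.2.1 (nbI q.2.1 (q.1 q.2.1) q.2.2)).finite_toSet.subset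
      (by
        rintro w ⟨-, u, hu, huw⟩
        obtain ⟨a, ha⟩ := ((labelling_prod hl).adj u w).1 huw
        exact mem_image.2 ⟨(u, a), by simp [hu], ha⟩)
  have hcard : ((Z.biUnion img).card : ℝ) ≤ ((vertexBoundary (prodGraph H) A).ncard : ℝ) := by
    rw [← Set.ncard_coe_finset]
    exact_mod_cast Set.ncard_le_ncard hsub hfinA
  refine le_trans ?_ hcard
  rw [card_biUnion (fun z hz z' hz' hne => by
    refine disjoint_left.2 fun y hy hy' => hne ?_
    simp only [img, mem_image] at hy hy'
    obtain ⟨w, -, rfl⟩ := hy
    obtain ⟨w', -, e⟩ := hy'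
    have h1 : ∀ z ∈ Z, z i = o i := fun z hz => by
      obtain ⟨x, -, rfl⟩ := mem_image.1 hz; simp [key]
    funext j
    by_cases hj : j = i
    · subst hj; rw [h1 z hz, h1 z' hz']
    · have := congrFun e j
      simpa [Function.update_of_ne hj] using this.symm),
    card_eq_sum_card_image key A]
  push_cast
  rw [mul_sum]
  refine sum_le_sum fun z _ => ?_
  simp only [img]
  rw [card_image_of_injective _ (Function.update_injective z i)]
  have hf : (fib z).card = (A.filter fun x => key x = z).card := card_image_of_injOn fun x hx y hy e => by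
    rw [← hrec x z (mem_filter.1 hx).2, ← hrec y z (mem_filter.1 hy).2]
    exact congrArg _ e
  rw [← hf, ← Set.ncard_eq_toFinset_card _ (hfinB i (fib z))]
  exact he i (fib z)

end Vale.Agent.P165
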