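import Vale.Agent.P165.Cluster
import Vale.Agent.P165.Product

/-!
# Graphs of large degree and uniform nonamenability have a nonuniqueness phase
-/

namespace Vale.Agent.P165

open Finset MeasureTheory ProbabilityTheory

variable {V ι : Type} [DecidableEq V] [Fintype ι] {G : SimpleGraph V} {nb : V → ι → V}

/-- Configurations with prescribed values on a finite edge set. -/
def pattern (G : SimpleGraph V) (F η : Finset (Sym2 V)) : Set (Config G) :=
  {ω | ∀ e : G.edgeSet, (e : Sym2 V) ∈ F → (ω e = true ↔ (e : Sym2 V) ∈ η)}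

theorem real_pattern (p : unitInterval) {F η : Finset (Sym2 V)} (hF : ↑F ⊆ G.edgeSet)
    (hη : η ⊆ F) :
    MeasurableSet (pattern G F η) ∧ (perc G p).real (pattern G F η) = wt F (p : ℝ) η := by
  classical
  have hpi : pattern G F η = Set.pi
      ((F.subtype (· ∈ G.edgeSet) : Finset G.edgeSet) : Set G.edgeSet)
      fun e : G.edgeSet => ({decide ((e : Sym2 V) ∈ η)} : Set Bool) := by
    ext ω
    simp only [pattern, Set.mem_ofPred_eq, Set.mem_pi, mem_coe, mem_subtype, Set.mem_singleton_iff]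
    refine forall_congr' fun e => imp_congr_right fun _ => ?_
    by_cases h : (e : Sym2 V) ∈ η <;> simp [h]
  rw [hpi]
  refine ⟨MeasurableSet.pi (Finset.countable_toSet _) fun _ _ => measurableSet_singleton _, ?_⟩
  rw [measureReal_def, perc, Measure.infinitePi_pi _ fun _ _ => measurableSet_singleton _,
    ENNReal.toReal_prod]
  have hval : ∀ e ∈ F.subtype (· ∈ G.edgeSet),
      ((bernoulliMeasure true false p) {decide ((e : Sym2 V) ∈ η)}).toReal
        = if (e : Sym2 V) ∈ η then (p : ℝ) else 1 - (p : ℝ) := by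
    intro e _
    rw [← measureReal_def]
    by_cases h : (e : Sym2 V) ∈ η <;> simp [h]
  rw [prod_congr rfl hval,
    prod_subtype_eq_prod_filter (f := fun e : Sym2 V => if e ∈ η then (p : ℝ) else 1 - (p : ℝ)),
    filter_true_of_mem fun e he => hF he, prod_ite, prod_const, prod_const, wt,
    filter_mem_eq_inter, inter_eq_right.2 hη, ← sdiff_eq_filter, card_sdiff_of_subset hη]

theorem exit_subset_bigAt (hl : Labelling G nb) (o : V) (n : ℕ) {F η : Finset (Sym2 V)}
    (hF : ↑F ⊆ G.edgeSet) (hη : η ⊆ F)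
    (hex : exits ((range (n + 1)).biUnion fun j => walkBall nb j o) η o) :
    pattern G F η ⊆ bigAt G o n := by
  classical
  intro ω hω
  obtain ⟨z, hz, hcl⟩ := hex
  have hle : SimpleGraph.fromEdgeSet (η : Set (Sym2 V)) ≤ openGraph G ω := by
    intro u v huv
    obtain ⟨h1, -⟩ := (SimpleGraph.fromEdgeSet_adj _).1 huv
    exact ⟨hF (hη h1), (hω ⟨_, hF (hη h1)⟩ (hη h1)).2 h1⟩
  obtain ⟨π, hπ⟩ := SimpleGraph.Reachable.exists_isPath (hcl.mono hle)
  have hlong : n < π.length := by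
    by_contra hc
    rw [not_lt] at hc
    let f : openGraph G ω →g G := { toFun := id, map_rel' := fun {u v} h => h.1 }
    refine hz (mem_biUnion.2 ⟨π.length, mem_range.2 (by omega), ?_⟩)
    have := mem_walkBall hl.listing (π.map f).reverse
    rw [SimpleGraph.Walk.length_reverse, SimpleGraph.Walk.length_map] at this
    exact this
  simp only [bigAt, Set.mem_iUnion, Set.mem_iInter]
  refine ⟨π.support.toFinset, ?_, fun v hv => ⟨π.takeUntil v (List.mem_toFinset.1 hv)⟩⟩
  rw [List.toFinset_card_of_nodup hπ.support_nodup, SimpleGraph.Walk.length_support]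
  omega

/-- Percolation above an interval on which every finite set has an expected open exit. -/
theorem infAt_pos_of_phi (hl : Labelling G nb) [Countable V] (o : V) {p₀ : ℝ} (p₁ : unitInterval)
    (h0 : 0 < p₀) (h01 : p₀ < p₁) (h1 : (p₁ : ℝ) < 1)
    (hphi : ∀ p ∈ Set.Icc p₀ (p₁ : ℝ), ∀ T : Finset V, o ∈ T → 1 ≤ phiIn nb T p o) :
    0 < perc G p₁ (infAt G o) := by
  classical
  have key : ∀ n, 1 - p₀ / (p₁ : ℝ) ≤ (perc G p₁).real (bigAt G o n) := by
    intro n
    set Λ := (range (n + 1)).biUnion fun j => walkBall nb j o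
    have ho : o ∈ Λ := mem_biUnion.2 ⟨0, mem_range.2 (Nat.succ_pos n), mem_singleton_self o⟩
    refine (exitProb_ge hl Λ ho h0 h01 h1 hphi).trans ?_
    set F := touch nb Λ with hFdef
    have hF : ↑F ⊆ G.edgeSet := fun e he => touch_adj hl.listing he
    let good := F.powerset.filter fun η => exits Λ η o
    have hdisj : Set.PairwiseDisjoint (↑good) (fun η => pattern G F η) := by
      intro η hη η' hη' hne
      refine Set.disjoint_left.2 fun ω h h' => hne ?_
      simp only [good, coe_filter, Set.mem_ofPred_eq, mem_powerset] at hη hη'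
      ext e
      constructor
      · intro he; exact (h' ⟨e, hF (hη.1 he)⟩ (hη.1 he)).1 ((h ⟨e, hF (hη.1 he)⟩ (hη.1 he)).2 he)
      · intro he; exact (h ⟨e, hF (hη'.1 he)⟩ (hη'.1 he)).1 ((h' ⟨e, hF (hη'.1 he)⟩ (hη'.1 he)).2 he)
    calc exitProb nb Λ (p₁ : ℝ) o = ∑ η ∈ good, wt F (p₁ : ℝ) η := by
          rw [exitProb, avg, ← hFdef, sum_filter]
          exact sum_congr rfl fun η _ => by rw [mul_ite, mul_one, mul_zero]
      _ = (perc G p₁).real (⋃ η ∈ good, pattern G F η) := by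
          rw [measureReal_biUnion_finset hdisj fun η hη =>
            (real_pattern p₁ hF (mem_powerset.1 (mem_filter.1 hη).1)).1]
          exact sum_congr rfl fun η hη =>
            (real_pattern p₁ hF (mem_powerset.1 (mem_filter.1 hη).1)).2.symm
      _ ≤ _ := measureReal_mono (Set.iUnion₂_subset fun η hη =>
            exit_subset_bigAt hl o n hF (mem_powerset.1 (mem_filter.1 hη).1) (mem_filter.1 hη).2)
  have h2 := infAt_real_ge hl p₁ o key
  have hpos : 0 < 1 - p₀ / (p₁ : ℝ) := sub_pos.2 ((div_lt_one (h0.trans h01)).2 h01)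
  by_contra h3
  rw [not_lt, nonpos_iff_eq_zero] at h3
  rw [measureReal_def, h3, ENNReal.toReal_zero] at h2
  linarith

omit [DecidableEq V] in
/-- A non-uniqueness window gives `pc < pu`. -/
theorem pc_lt_pu (H : SimpleGraph V) (p : unitInterval) (p₁ : ℝ) (hp : (p : ℝ) < p₁)
    (hperc : 0 < perc H p (hasInfinite H)) (hone : perc H 1 (uniqueInfinite H) = 1)
    (hnot : ∀ q : unitInterval, (q : ℝ) < p₁ → perc H q (uniqueInfinite H) ≠ 1) : pc H < pu H := by
  have h1 : pc H ≤ (p : ℝ) := by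
    refine csInf_le ⟨0, ?_⟩ ⟨p, hperc, rfl⟩
    rintro _ ⟨q, -, rfl⟩
    exact q.2.1
  have h2 : p₁ ≤ pu H := by
    refine le_csInf ⟨_, 1, hone, rfl⟩ ?_
    rintro _ ⟨q, hq, rfl⟩
    exact not_lt.1 fun hlt => hnot q hlt hq
  linarith

/-- The closed-walk series is small: interpolation between the spectral bound and the trivial
bound on walk counts. -/
theorem closedWalk_le (hl : Labelling G nb) {ρ b p Y : ℝ} (m : ℕ) (hρ : 0 < ρ)
    (hd : 0 < Fintype.card ι) (hb : FormBound nb (ρ * Fintype.card ι))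
    (hb0 : 0 < b) (hb1 : b < 1) (hp : 0 ≤ p) (hY : 0 < Y)
    (hYd : Y ^ (m + 1) ≤ (Fintype.card ι : ℝ) ^ m)
    (hpb : (p * Fintype.card ι) ^ (m + 1) * ρ ≤ b ^ (m + 1)) (w : V) (N : ℕ) :
    ∑ i ∈ range N, ∑ j ∈ range N, p ^ (i + j + 1) * walkCount nb (i + j + 1) w w
      ≤ 1 / ((1 - b) ^ 2 * Y) := by
  set d : ℝ := (Fintype.card ι : ℝ) with hdd
  have hd0 : 0 < d := by rw [hdd]; exact_mod_cast hd
  have hterm : ∀ n : ℕ, p ^ (n + 1) * walkCount nb (n + 1) w w ≤ b ^ (n + 1) / Y := by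
    intro n
    set W := walkCount nb (n + 1) w w with hW
    have hW0 : 0 ≤ W := walkCount_nonneg nb _ _ _
    have h1 : W ≤ (ρ * d) ^ (n + 1) := walkCount_le hl (mul_pos hρ hd0) hb (n + 1) w w
    have h2 : W ≤ d ^ n := walkCount_succ_le hl w n w
    rw [le_div_iff₀ hY]
    refine (pow_le_pow_iff_left₀ (by positivity) (by positivity) (Nat.succ_ne_zero m)).1 ?_
    calc (p ^ (n + 1) * W * Y) ^ (m + 1)
        = (p ^ (n + 1)) ^ (m + 1) * (W * W ^ m) * Y ^ (m + 1) := by
          rw [mul_pow, mul_pow, pow_succ' W]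
      _ ≤ (p ^ (n + 1)) ^ (m + 1) * ((ρ * d) ^ (n + 1) * (d ^ n) ^ m) * d ^ m := by
          refine mul_le_mul (mul_le_mul_of_nonneg_left ?_ (by positivity)) hYd (by positivity)
            (by positivity)
          exact mul_le_mul h1 (pow_le_pow_left₀ hW0 h2 m) (pow_nonneg hW0 _) (by positivity)
      _ = ((p * d) ^ (m + 1) * ρ) ^ (n + 1) := by
          simp only [mul_pow, ← pow_mul]
          ring
      _ ≤ (b ^ (m + 1)) ^ (n + 1) := pow_le_pow_left₀ (by positivity) hpb _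
      _ = (b ^ (n + 1)) ^ (m + 1) := by rw [← pow_mul, ← pow_mul, mul_comm]
  have hgeo : ∀ M : ℕ, ∑ i ∈ range M, b ^ i ≤ 1 / (1 - b) := fun M => by
    rw [one_div, ← tsum_geometric_of_lt_one hb0.le hb1]
    exact (summable_geometric_of_lt_one hb0.le hb1).sum_le_tsum _ fun i _ => pow_nonneg hb0.le i
  calc ∑ i ∈ range N, ∑ j ∈ range N, p ^ (i + j + 1) * walkCount nb (i + j + 1) w w
      ≤ ∑ i ∈ range N, ∑ j ∈ range N, b ^ i * b ^ j / Y := by
        refine sum_le_sum fun i _ => sum_le_sum fun j _ => (hterm _).trans ?_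
        refine div_le_div_of_nonneg_right ?_ hY.le
        rw [← pow_add]
        exact pow_le_pow_of_le_one hb0.le hb1.le (Nat.le_succ _)
    _ = (∑ i ∈ range N, b ^ i) * (∑ j ∈ range N, b ^ j) / Y := by
        simp only [sum_mul_sum, sum_div]
    _ ≤ (1 / (1 - b)) * (1 / (1 - b)) / Y := by
        refine div_le_div_of_nonneg_right (mul_le_mul (hgeo N) (hgeo N) (sum_nonneg fun j _ =>
          pow_nonneg hb0.le j) (by have := (sub_pos.2 hb1); positivity)) hY.le
    _ = _ := by field_simp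

/-- A spectral gap `γ` and degree large polynomially in `1/γ` force `pc < pu`. -/
theorem spectral_nonuniqueness (hl : Labelling G nb) (hc : G.Connected) [Infinite V]
    (hq : QuasiTransitive G) (m : ℕ) {γ : ℝ} (hγ0 : 0 < γ) (hγ1 : γ ≤ 1 / 2)
    (hb : FormBound nb ((1 - γ) * Fintype.card ι))
    (hsize : (4 / (γ / (4 * ((m : ℝ) + 1))) ^ 3) ^ (m + 1) ≤ (Fintype.card ι : ℝ) ^ m) :
    pc G < pu G := by
  classical
  set d : ℝ := (Fintype.card ι : ℝ) with hdd
  set x : ℝ := γ / (4 * ((m : ℝ) + 1)) with hx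
  set Y : ℝ := 4 / x ^ 3 with hYdef
  have hx0 : 0 < x := by positivity
  have hm0 : (0 : ℝ) ≤ m := Nat.cast_nonneg m
  have hxg : x ≤ γ / 4 := by
    rw [hx]
    exact div_le_div_of_nonneg_left hγ0.le (by norm_num) (by linarith)
  have hx1 : x ≤ 1 / 8 := by linarith
  have hY1 : 1 < Y := by
    rw [hYdef, one_lt_div (by positivity)]
    calc x ^ 3 ≤ 1 := pow_le_one₀ hx0.le (by linarith)
      _ < 4 := by norm_num
  have hY0 : 0 < Y := by linarith
  have hdn : 0 < Fintype.card ι := by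
    by_contra hz
    have h0 : d = 0 := by
      rw [hdd]; exact_mod_cast Nat.le_zero.1 (not_lt.1 hz)
    have h1 : 1 < Y ^ (m + 1) := one_lt_pow₀ hY1 (Nat.succ_ne_zero m)
    rw [h0] at hsize
    rcases Nat.eq_zero_or_pos m with hm | hm
    · simp [hm] at hsize h1; linarith
    · rw [zero_pow (by omega)] at hsize; linarith
  have hd0 : 0 < d := by rw [hdd]; exact_mod_cast hdn
  have hd1 : 1 ≤ d := by rw [hdd]; exact_mod_cast hdn
  have hYd : Y ≤ d := by
    refine (pow_le_pow_iff_left₀ hY0.le hd0.le (Nat.succ_ne_zero m)).1 (hsize.trans ?_)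
    exact pow_le_pow_right₀ hd1 (Nat.le_succ m)
  set a₁ : ℝ := 1 + x with ha1
  set a₀ : ℝ := 1 + x / 2 with ha0
  set b : ℝ := 1 - x with hb'
  have hb0 : 0 < b := by rw [hb']; linarith
  have hb1 : b < 1 := by rw [hb']; linarith
  have hρ0 : 0 < 1 - γ := by linarith
  have hpow : a₁ ^ (m + 1) * (1 - γ) ≤ b ^ (m + 1) := by
    have h1 : 1 + ((m + 1 : ℕ) : ℝ) * (-x) ≤ (1 + -x) ^ (m + 1) :=
      one_add_mul_le_pow (by linarith) (m + 1)
    have hmx : ((m + 1 : ℕ) : ℝ) * x = γ / 4 := by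
      push_cast; rw [hx]; field_simp
    have h2 : 1 - γ / 4 ≤ b ^ (m + 1) := by
      rw [hb', sub_eq_add_neg 1 x]
      linarith
    have h3 : a₁ ^ (m + 1) * b ^ (m + 1) ≤ 1 := by
      rw [← mul_pow]
      refine pow_le_one₀ (by positivity) ?_
      rw [ha1, hb']; nlinarith
    have h4 : (0 : ℝ) < b ^ (m + 1) := pow_pos hb0 _
    refine le_of_mul_le_mul_right ?_ h4
    calc a₁ ^ (m + 1) * (1 - γ) * b ^ (m + 1)
        = a₁ ^ (m + 1) * b ^ (m + 1) * (1 - γ) := by ring
      _ ≤ 1 * (1 - γ) := mul_le_mul_of_nonneg_right h3 hρ0.le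
      _ ≤ (1 - γ / 4) * (1 - γ / 4) := by nlinarith
      _ ≤ b ^ (m + 1) * b ^ (m + 1) := mul_le_mul h2 h2 (by linarith) h4.le
  have hcond : 1 + 1 / ((1 - b) ^ 2 * Y) + a₁ / d ≤ a₀ := by
    have h1 : 1 / ((1 - b) ^ 2 * Y) = x / 4 := by
      rw [hb', hYdef, show 1 - (1 - x) = x by ring]; field_simp
    have h2 : a₁ / d ≤ x / 4 := by
      calc a₁ / d ≤ a₁ / Y := div_le_div_of_nonneg_left (by rw [ha1]; linarith) hY0 hYd
        _ = (1 + x) * x ^ 2 * (x / 4) := by rw [ha1, hYdef]; field_simp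
        _ ≤ 1 * (x / 4) := by
            refine mul_le_mul_of_nonneg_right ?_ (by positivity)
            nlinarith
        _ = x / 4 := one_mul _
    rw [h1, ha0]; linarith
  have hcount : Countable V := countable_of_connected hl.listing hc
  obtain ⟨o⟩ := hc.nonempty
  have hp1le : a₁ / d < 1 := by
    have : a₁ / d ≤ a₀ - 1 := by
      have : 0 ≤ 1 / ((1 - b) ^ 2 * Y) := by positivity
      linarith
    rw [ha0] at this
    linarith
  have h01 : a₀ < a₁ := by rw [ha0, ha1]; linarith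
  let p₁ : unitInterval := ⟨a₁ / d, (div_pos (by rw [ha1]; linarith) hd0).le, hp1le.le⟩
  have ha0pos : 0 < a₀ := by rw [ha0]; linarith
  have hphi : ∀ p ∈ Set.Icc (a₀ / d) (p₁ : ℝ), ∀ T : Finset V, o ∈ T → 1 ≤ phiIn nb T p o := by
    intro p hp T ho
    obtain ⟨hp0, hp1⟩ := hp
    replace hp1 : p ≤ a₁ / d := hp1
    have hpnn : 0 ≤ p := le_trans (div_pos ha0pos hd0).le hp0
    have hpd1 : p * d ≤ a₁ := (le_div_iff₀ hd0).1 hp1
    have hpd0 : a₀ ≤ p * d := (div_le_iff₀ hd0).1 hp0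
    refine phiIn_ge_one hl (δ := 1 / ((1 - b) ^ 2 * Y)) hpnn (hp1.trans hp1le.le) (fun w N => ?_) ?_
      T ho
    · refine closedWalk_le hl m hρ0 hdn hb hb0 hb1 hpnn hY0 hsize ?_ w N
      exact (mul_le_mul_of_nonneg_right (pow_le_pow_left₀ (by positivity) hpd1 _) hρ0.le).trans hpow
    · linarith
  have hperc : 0 < perc G p₁ (infAt G o) :=
    infAt_pos_of_phi hl o p₁ (div_pos ha0pos hd0) (div_lt_div_of_pos_right h01 hd0) hp1le hphi
  have hρd : 0 < (1 - γ) * d := mul_pos hρ0 hd0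
  refine pc_lt_pu G p₁ (1 / ((1 - γ) * d)) ?_ ?_ (perc_one_unique hc) ?_
  · show a₁ / d < _
    rw [div_lt_div_iff₀ hd0 hρd, ha1]
    have h1 : (1 + x) * (1 - γ) < 1 := by nlinarith
    calc (1 + x) * ((1 - γ) * d) = (1 + x) * (1 - γ) * d := by ring
      _ < 1 * d := mul_lt_mul_of_pos_right h1 hd0
  · refine lt_of_lt_of_le hperc (measure_mono ?_)
    rw [hasInfinite_eq]
    exact Set.subset_iUnion _ o
  · intro q hqlt
    refine not_unique hl hc hq hρd hb q ?_
    rw [lt_div_iff₀ hρd] at hqlt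
    exact hqlt

omit [DecidableEq V] [Fintype ι] in
/-- Edge expansion `h ≥ C d ^ κ` for some `κ > 5/6` forces `pc < pu`. -/
theorem nonuniqueness_of_edge_expansion (m : ℕ) (hm : 1 ≤ m) :
    ∃ C : ℝ, 0 < C ∧ ∀ (d : ℕ) (h : ℝ) (V : Type) (G : SimpleGraph V), G.Connected →
      (∀ v, (G.neighborSet v).encard = d) → QuasiTransitive G → 0 < h → EdgeExpands G h →
      C * (d : ℝ) ^ (5 * m + 1) ≤ h ^ (6 * m) → pc G < pu G := by
  classical
  obtain ⟨k, rfl⟩ := Nat.exists_eq_add_of_le hm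
  rw [add_comm 1 k]
  refine ⟨(4 * (16 * ((k : ℝ) + 1)) ^ 3) ^ (k + 1), by positivity,
    fun d h V G hc hdeg hq hh he hbig => ?_⟩
  obtain ⟨nb, hl⟩ := exists_labelling G d hdeg
  have hhd : h ≤ d := by
    obtain ⟨v⟩ := hc.nonempty
    have h1 := he {v}
    rw [card_singleton, Nat.cast_one, mul_one] at h1
    refine h1.trans (Nat.cast_le.2 ?_)
    refine le_trans (Set.ncard_le_ncard (t := ↑(univ.image fun a : Fin d => (v, nb v a))) ?_
      (finite_toSet _)) ?_
    · rintro ⟨u, w⟩ ⟨hu, -, huw⟩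
      rw [mem_singleton] at hu
      subst hu
      obtain ⟨a, ha⟩ := (hl.adj u w).1 huw
      rw [coe_image]; exact ⟨a, by simp, by simp [ha]⟩
    · rw [Set.ncard_coe_finset]
      exact card_image_le.trans (by simp)
  have hd0 : (0 : ℝ) < d := lt_of_lt_of_le hh hhd
  have hdn : 0 < d := by exact_mod_cast hd0
  have hinf : Infinite V := by
    by_contra hfin
    rw [not_infinite_iff_finite] at hfin
    have := Fintype.ofFinite V
    have h1 := he univ
    have h0 : edgeBoundary G (univ : Finset V) = ∅ :=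
      Set.eq_empty_of_forall_notMem fun q hq => hq.2.1 (mem_univ _)
    rw [h0, Set.ncard_empty, Nat.cast_zero] at h1
    have := hc.nonempty
    have : (0 : ℝ) < ((univ : Finset V).card : ℝ) := by exact_mod_cast univ_nonempty.card_pos
    nlinarith
  refine spectral_nonuniqueness hl hc hq k (γ := h ^ 2 / (4 * (d : ℝ) ^ 2)) (by positivity) ?_ ?_ ?_
  · rw [div_le_iff₀ (by positivity)]; nlinarith
  · have hb := formBound_of_expands hl hh he (by simpa using hdn)
    rw [Fintype.card_fin] at hb ⊢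
    have e : (d : ℝ) - h ^ 2 / (4 * d) = (1 - h ^ 2 / (4 * (d : ℝ) ^ 2)) * d := by field_simp
    rwa [e] at hb
  · rw [Fintype.card_fin]
    have e : 4 / (h ^ 2 / (4 * (d : ℝ) ^ 2) / (4 * ((k : ℝ) + 1))) ^ 3
        = 4 * (16 * ((k : ℝ) + 1)) ^ 3 * (d : ℝ) ^ 6 / h ^ 6 := by
      field_simp
      ring
    rw [e, div_pow, mul_pow, div_le_iff₀ (by positivity), ← pow_mul, ← pow_mul]
    calc (4 * (16 * ((k : ℝ) + 1)) ^ 3) ^ (k + 1) * (d : ℝ) ^ (6 * (k + 1))
        = (4 * (16 * ((k : ℝ) + 1)) ^ 3) ^ (k + 1) * (d : ℝ) ^ (5 * (k + 1) + 1) * (d : ℝ) ^ k := by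
          rw [mul_assoc, ← pow_add]; ring_nf
      _ ≤ h ^ (6 * (k + 1)) * (d : ℝ) ^ k := mul_le_mul_of_nonneg_right hbig (by positivity)
      _ = _ := mul_comm _ _

omit [DecidableEq V] [Fintype ι] in
/-- Large Cartesian products. -/
theorem nonuniqueness_of_large_products (d : ℕ) (h : ℝ) (hh : 0 < h) :
    ∃ k₀ : ℕ, ∀ k ≥ k₀, ∀ (W : Fin k → Type) (G : ∀ i, SimpleGraph (W i)),
      (∀ i, (G i).Connected) → (∀ i v, ((G i).neighborSet v).encard = d) →
      (∀ i, Expands (G i) h) → (∀ i, QuasiTransitive (G i)) →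
      (prodGraph G).Connected ∧ QuasiTransitive (prodGraph G) ∧
        Expands (prodGraph G) h ∧ pc (prodGraph G) < pu (prodGraph G) := by
  classical
  by_cases hdeg : h ≤ d
  swap
  · refine ⟨1, fun k hk W G hc hd he _ => ?_⟩
    obtain ⟨nb, hl⟩ := exists_labelling (G ⟨0, hk⟩) d (hd _)
    have := boundary_card_le hl (he _) (hc ⟨0, hk⟩).nonempty.some
    rw [Fintype.card_fin] at this
    exact absurd this hdeg
  have hdR : (0 : ℝ) < d := lt_of_lt_of_le hh hdeg
  have hd0 : 0 < d := by exact_mod_cast hdR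
  set γ : ℝ := h ^ 2 / (4 * (d : ℝ) ^ 2) with hγ
  have hγ1 : γ ≤ 1 / 2 := by rw [hγ, div_le_iff₀ (by positivity)]; nlinarith
  obtain ⟨d₀, hd₀⟩ := exists_nat_ge ((4 / (γ / (4 * (((1 : ℕ) : ℝ) + 1))) ^ 3) ^ (1 + 1))
  refine ⟨d₀ + 1, fun k hk W G hc hd he hq => ?_⟩
  choose nb hl using fun i => exists_labelling (G i) d (hd i)
  have hne : Nonempty (Fin k) := ⟨⟨0, by omega⟩⟩
  let o : ∀ i, W i := fun i => (hc i).nonempty.some
  have hinf : Infinite (∀ i, W i) := by
    obtain ⟨i⟩ := hne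
    have := infinite_of_expands hh (hc i) (he i)
    exact Infinite.of_injective _ (Function.update_injective o i)
  have hlP := labelling_prod hl
  have hcP := connected_prod hc
  have hqP := quasiTransitive_prod hq
  refine ⟨hcP, hqP, expands_prod hl o he, ?_⟩
  refine spectral_nonuniqueness hlP hcP hqP 1 (γ := γ) (by positivity) hγ1 ?_ ?_
  swap
  · rw [Fintype.card_prod, Fintype.card_fin, Fintype.card_fin, pow_one]
    exact hd₀.trans (Nat.cast_le.2 ((by omega : d₀ ≤ k).trans (Nat.le_mul_of_pos_right k hd0)))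
  · have hb1 : ∀ i, FormBound (nb i) ((d : ℝ) - h ^ 2 / (4 * d)) := fun i => by
      simpa using formBound_of_expands (hl i) hh (edgeExpands_of_expands (hl i) (he i))
        (by simpa using hd0)
    have hbP := formBound_prod nb o hb1
    rw [Fintype.card_fin] at hbP
    rw [Fintype.card_prod, Fintype.card_fin, Fintype.card_fin]
    have e : (k : ℝ) * ((d : ℝ) - h ^ 2 / (4 * d)) = (1 - γ) * ((k * d : ℕ) : ℝ) := by
      rw [hγ]
      push_cast
      field_simp
    rwa [e] at hbP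

end Vale.Agent.P165
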