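import Vale.Agent.P165.Spectral

/-!
# Percolation on a finite edge set: weights and the differential inequality
-/

namespace Vale.Agent.P165

open Finset

section Weights

variable {α : Type} [DecidableEq α]

/-- The probability of the open set `η` among the edges `E`. -/
def wt (E : Finset α) (p : ℝ) (η : Finset α) : ℝ :=
  p ^ η.card * (1 - p) ^ (E.card - η.card)

/-- Expectation over open subsets of `E`. -/
def avg (E : Finset α) (p : ℝ) (f : Finset α → ℝ) : ℝ :=
  ∑ η ∈ E.powerset, wt E p η * f η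

omit [DecidableEq α] in
theorem wt_nonneg (E : Finset α) {p : ℝ} (h0 : 0 ≤ p) (h1 : p ≤ 1) (η : Finset α) :
    0 ≤ wt E p η :=
  mul_nonneg (pow_nonneg h0 _) (pow_nonneg (by linarith) _)

omit [DecidableEq α] in
theorem avg_one (E : Finset α) (p : ℝ) : avg E p (fun _ => 1) = 1 := by
  simp only [avg, wt, mul_one]
  rw [sum_pow_mul_eq_add_pow]
  simp

omit [DecidableEq α] in
theorem avg_mono (E : Finset α) {p : ℝ} (h0 : 0 ≤ p) (h1 : p ≤ 1) {f g : Finset α → ℝ}
    (h : ∀ η, η ⊆ E → f η ≤ g η) : avg E p f ≤ avg E p g :=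
  sum_le_sum fun η hη => mul_le_mul_of_nonneg_left (h η (mem_powerset.1 hη)) (wt_nonneg E h0 h1 η)

omit [DecidableEq α] in
theorem avg_congr (E : Finset α) (p : ℝ) {f g : Finset α → ℝ} (h : ∀ η, η ⊆ E → f η = g η) :
    avg E p f = avg E p g :=
  sum_congr rfl fun η hη => by rw [h η (mem_powerset.1 hη)]

omit [DecidableEq α] in
theorem avg_sum {β : Type} (E : Finset α) (p : ℝ) (s : Finset β) (f : β → Finset α → ℝ) :
    avg E p (fun η => ∑ b ∈ s, f b η) = ∑ b ∈ s, avg E p (f b) := by
  simp only [avg, mul_sum]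
  exact sum_comm

omit [DecidableEq α] in
theorem avg_add (E : Finset α) (p : ℝ) (f g : Finset α → ℝ) :
    avg E p (fun η => f η + g η) = avg E p f + avg E p g := by
  simp only [avg, mul_add, sum_add_distrib]

omit [DecidableEq α] in
theorem avg_mul (E : Finset α) (p : ℝ) (c : ℝ) (f : Finset α → ℝ) :
    avg E p (fun η => c * f η) = c * avg E p f := by
  simp only [avg, mul_sum]
  exact sum_congr rfl fun η _ => by ring

theorem avg_split {E A : Finset α} (hA : A ⊆ E) (p : ℝ) (f g : Finset α → ℝ) :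
    avg E p (fun η => f (η ∩ A) * g (η \ A)) = avg A p f * avg (E \ A) p g := by
  rw [avg, avg, avg, sum_mul_sum, ← sum_product']
  refine sum_nbij' (fun η => (η ∩ A, η \ A)) (fun q => q.1 ∪ q.2) ?_ ?_ ?_ ?_ ?_
  · intro η hη
    simp only [mem_coe, mem_product, mem_powerset] at hη ⊢
    exact ⟨inter_subset_right, sdiff_subset_sdiff hη le_rfl⟩
  · intro q hq
    simp only [mem_coe, mem_product, mem_powerset] at hq ⊢
    exact union_subset (hq.1.trans hA) (hq.2.trans sdiff_subset)
  · intro η _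
    rw [union_comm]
    exact sdiff_union_inter η A
  · intro q hq
    simp only [mem_coe, mem_product, mem_powerset] at hq
    obtain ⟨h1, h2⟩ := hq
    refine Prod.ext ?_ ?_ <;> ext e <;> simp only [mem_inter, mem_union, mem_sdiff] <;>
      have := @h1 e <;> have := fun h => mem_sdiff.1 (@h2 e h) <;> tauto
  · intro η hη
    rw [mem_powerset] at hη
    have e1 : η.card = (η ∩ A).card + (η \ A).card := (card_inter_add_card_sdiff η A).symm
    have e2 : (E \ A).card = E.card - A.card := card_sdiff_of_subset hA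
    have e3 : (η ∩ A).card ≤ A.card := card_le_card inter_subset_right
    have e4 : (η \ A).card ≤ (E \ A).card := card_le_card (sdiff_subset_sdiff hη le_rfl)
    have e5 : E.card - η.card = (A.card - (η ∩ A).card) + ((E \ A).card - (η \ A).card) := by
      have := card_le_card hA
      omega
    simp only [wt]
    rw [e1] at e5 ⊢
    rw [e5, pow_add, pow_add]
    ring

theorem avg_forced {E F : Finset α} (hF : F ⊆ E) (p : ℝ) (g : Finset α → ℝ) :
    avg E p (fun η => if F ⊆ η then g (η \ F) else 0) = p ^ F.card * avg (E \ F) p g := by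
  have h : avg E p (fun η => if F ⊆ η then g (η \ F) else 0)
      = avg E p (fun η => (if η ∩ F = F then 1 else 0) * g (η \ F)) := by
    refine avg_congr E p fun η _ => ?_
    by_cases hc : F ⊆ η
    · rw [if_pos hc, if_pos (inter_eq_right.2 hc), one_mul]
    · rw [if_neg hc, if_neg fun h => hc (inter_eq_right.1 h), zero_mul]
  rw [h, avg_split hF p (fun x => if x = F then 1 else 0) g]
  congr 1
  simp [avg, wt]

theorem avg_sdiff_le {E F : Finset α} (hF : F ⊆ E) {p : ℝ} (h0 : 0 ≤ p) (h1 : p ≤ 1)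
    {g : Finset α → ℝ} (hg : ∀ η, η ⊆ E → g (η \ F) ≤ g η) :
    avg (E \ F) p g ≤ avg E p g := by
  have := avg_split hF p (fun _ => (1 : ℝ)) g
  simp only [one_mul, avg_one] at this
  rw [← this]
  exact avg_mono E h0 h1 hg

/-- Russo's formula, for any function. -/
theorem hasDerivAt_avg (E : Finset α) (f : Finset α → ℝ) {p : ℝ} (h0 : 0 < p) (h1 : p < 1) :
    HasDerivAt (fun q => avg E q f)
      ((avg E p fun η => ∑ e ∈ E \ η, (f (insert e η) - f η)) / (1 - p)) p := by
  have hd : HasDerivAt (fun q => avg E q f) (∑ η ∈ E.powerset,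
      wt E p η * ((η.card : ℝ) / p - ((E.card - η.card : ℕ) : ℝ) / (1 - p)) * f η) p := by
    refine HasDerivAt.fun_sum fun η _ => HasDerivAt.mul_const ?_ (f η)
    have hb : HasDerivAt (fun q : ℝ => 1 - q) (-1) p := (hasDerivAt_id p).const_sub 1
    have hm := (hasDerivAt_pow η.card p).mul (hb.pow (E.card - η.card))
    refine (hm.congr_deriv ?_)
    simp only [wt]
    have hp : p ≠ 0 := h0.ne'
    have hq : 1 - p ≠ 0 := by linarith
    have key : ∀ (n : ℕ) (x : ℝ), x ≠ 0 → (n : ℝ) * x ^ (n - 1) = x ^ n * ((n : ℝ) / x) := by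
      intro n x hx
      cases n with
      | zero => simp
      | succ n => rw [Nat.add_sub_cancel, pow_succ]; field_simp
    simp only [Pi.pow_apply]
    rw [key η.card p hp, key (E.card - η.card) (1 - p) hq]
    ring
  refine hd.congr_deriv ?_
  set A := avg E p fun η => ∑ e ∈ E \ η, f (insert e η) with hA
  set B := avg E p fun η => ((E \ η).card : ℝ) * f η with hB
  set C := avg E p fun η => (η.card : ℝ) * f η with hC
  have hswap : (1 - p) * C = p * A := by
    have h1' : ∀ g : Finset α → α → ℝ, ∀ P : Finset α → α → Prop, [∀ η e, Decidable (P η e)] →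
        ∑ η ∈ E.powerset, ∑ e ∈ E, (if P η e then g η e else 0)
          = ∑ e ∈ E, ∑ η ∈ E.powerset.filter (fun η => P η e), g η e := by
      intro g P _
      rw [sum_comm]
      exact sum_congr rfl fun e _ => (sum_filter _ _).symm
    have hCe : C = ∑ e ∈ E, ∑ η ∈ E.powerset.filter (fun η => e ∈ η), wt E p η * f η := by
      rw [← h1' (fun η _ => wt E p η * f η) (fun η e => e ∈ η), hC, avg]
      refine sum_congr rfl fun η hη => ?_
      rw [sum_ite_mem, inter_eq_right.2 (mem_powerset.1 hη), sum_const, nsmul_eq_mul]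
      ring
    have hAe : A = ∑ e ∈ E, ∑ η ∈ E.powerset.filter (fun η => e ∉ η),
        wt E p η * f (insert e η) := by
      rw [← h1' (fun η e => wt E p η * f (insert e η)) (fun η e => e ∉ η), hA, avg]
      refine sum_congr rfl fun η _ => ?_
      rw [mul_sum, sdiff_eq_filter, sum_filter]
    rw [hCe, hAe, mul_sum, mul_sum]
    refine sum_congr rfl fun e he => ?_
    rw [mul_sum, mul_sum]
    refine sum_nbij' (fun η => η.erase e) (fun η => insert e η) ?_ ?_ ?_ ?_ ?_
    · intro η hη
      simp only [mem_coe, mem_filter, mem_powerset] at hη ⊢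
      exact ⟨(erase_subset _ _).trans hη.1, notMem_erase _ _⟩
    · intro η hη
      simp only [mem_coe, mem_filter, mem_powerset] at hη ⊢
      exact ⟨insert_subset he hη.1, mem_insert_self _ _⟩
    · intro η hη
      simp only [mem_coe, mem_filter] at hη
      exact insert_erase hη.2
    · intro η hη
      simp only [mem_coe, mem_filter] at hη
      exact erase_insert hη.2
    · intro η hη
      simp only [mem_filter, mem_powerset] at hη
      rw [insert_erase hη.2, ← mul_assoc, ← mul_assoc]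
      congr 1
      simp only [wt, card_erase_of_mem hη.2]
      have h2 := card_pos.2 ⟨e, hη.2⟩
      have h3 := card_le_card hη.1
      obtain ⟨k, hk⟩ := Nat.exists_eq_add_of_le h2
      rw [show E.card - (η.card - 1) = (E.card - η.card) + 1 by omega, hk, add_comm _ k,
        Nat.succ_eq_add_one, Nat.zero_add, Nat.add_sub_cancel, pow_succ, pow_succ]
      ring
  have hL : (avg E p fun η => ∑ e ∈ E \ η, (f (insert e η) - f η)) = A - B := by
    simp only [hA, hB, avg, sum_sub_distrib, sum_const, nsmul_eq_mul, mul_sub]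
  rw [hL]
  have hR : ∑ η ∈ E.powerset,
      wt E p η * ((η.card : ℝ) / p - ((E.card - η.card : ℕ) : ℝ) / (1 - p)) * f η
        = C / p - B / (1 - p) := by
    simp only [hC, hB, avg, sum_div, ← sum_sub_distrib]
    refine sum_congr rfl fun η hη => ?_
    rw [card_sdiff_of_subset (mem_powerset.1 hη)]
    ring
  have hq : 1 - p ≠ 0 := by linarith
  rw [hR]
  field_simp
  linarith

end Weights

section Exit

variable {V ι : Type} [DecidableEq V] [Fintype ι]

/-- Connection by edges of `η`. -/
def cl (η : Finset (Sym2 V)) (x y : V) : Prop :=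
  (SimpleGraph.fromEdgeSet (η : Set (Sym2 V))).Reachable x y

omit [DecidableEq V] in
theorem cl_mono {η η' : Finset (Sym2 V)} (h : η ⊆ η') {x y : V} (hc : cl η x y) : cl η' x y :=
  hc.mono (SimpleGraph.fromEdgeSet_mono (coe_subset.2 h))

omit [DecidableEq V] in
theorem cl_edge {η : Finset (Sym2 V)} {x y : V} (hne : x ≠ y) (h : s(x, y) ∈ η) : cl η x y :=
  SimpleGraph.Adj.reachable ((SimpleGraph.fromEdgeSet_adj _).2 ⟨h, hne⟩)

omit [DecidableEq V] in
theorem cl_of_walk {η η' : Finset (Sym2 V)} {x y : V}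
    (w : (SimpleGraph.fromEdgeSet (η : Set (Sym2 V))).Walk x y) (h : ∀ e ∈ w.edges, e ∈ η') :
    cl η' x y := by
  refine ⟨w.transfer _ fun e he => ?_⟩
  have h1 := w.edges_subset_edgeSet he
  rw [SimpleGraph.edgeSet_fromEdgeSet] at h1 ⊢
  exact ⟨h e he, h1.2⟩

/-- The edges touching `S`. -/
def touch (nb : V → ι → V) (S : Finset V) : Finset (Sym2 V) :=
  (S ×ˢ (univ : Finset ι)).image fun q => s(q.1, nb q.1 q.2)

/-- The edges inside `S`. -/
def inE (nb : V → ι → V) (S : Finset V) : Finset (Sym2 V) :=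
  (touch nb S).filter fun e => e ∈ S.sym2

variable {G : SimpleGraph V} {nb : V → ι → V}

theorem touch_adj (hl : Listing G nb) {S : Finset V} {e : Sym2 V} (he : e ∈ touch nb S) :
    e ∈ G.edgeSet := by
  obtain ⟨⟨x, a⟩, -, rfl⟩ := mem_image.1 he
  exact hl.adj_nb x a

theorem inE_mem {S : Finset V} {e : Sym2 V} (he : e ∈ inE nb S) {v : V} (hv : v ∈ e) : v ∈ S :=
  mem_sym2_iff.1 (mem_filter.1 he).2 v hv

theorem mem_touch {S : Finset V} {x : V} (hx : x ∈ S) (a : ι) : s(x, nb x a) ∈ touch nb S :=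
  mem_image.2 ⟨(x, a), by simp [hx], rfl⟩

theorem mem_inE (hl : Labelling G nb) {S : Finset V} {x y : V} (hx : x ∈ S) (hy : y ∈ S)
    (h : G.Adj x y) : s(x, y) ∈ inE nb S := by
  obtain ⟨a, rfl⟩ := (hl.adj x y).1 h
  exact mem_filter.2 ⟨mem_touch hx a, mk_mem_sym2_iff.2 ⟨hx, hy⟩⟩

open Classical in
/-- Connection probability inside `S`. -/
noncomputable def tauIn (nb : V → ι → V) (S : Finset V) (p : ℝ) (o x : V) : ℝ :=
  avg (inE nb S) p fun η => if cl η o x then 1 else 0

open Classical in
/-- The expected number of open exits from `S`. -/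
noncomputable def phiIn (nb : V → ι → V) (S : Finset V) (p : ℝ) (o : V) : ℝ :=
  p * ∑ x ∈ S, ∑ a, (if nb x a ∉ S then tauIn nb S p o x else 0)

/-- `x` is joined to the outside of `Λ`. -/
def exits (Λ : Finset V) (η : Finset (Sym2 V)) (x : V) : Prop := ∃ z, z ∉ Λ ∧ cl η x z

omit [DecidableEq V] in
theorem exits_trans {Λ : Finset V} {η : Finset (Sym2 V)} {x y : V} (h : cl η x y)
    (hy : exits Λ η y) : exits Λ η x := by
  obtain ⟨z, hz, hyz⟩ := hy
  exact ⟨z, hz, h.trans hyz⟩

open Classical in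
/-- The vertices of `Λ` not joined to the outside. -/
noncomputable def inner (Λ : Finset V) (η : Finset (Sym2 V)) : Finset V :=
  Λ.filter fun x => ¬ exits Λ η x

open Classical in
/-- The chance that `o` is joined to the outside of `Λ`. -/
noncomputable def exitProb (nb : V → ι → V) (Λ : Finset V) (p : ℝ) (o : V) : ℝ :=
  avg (touch nb Λ) p fun η => if exits Λ η o then 1 else 0

theorem inner_eq (hl : Labelling G nb) {Λ T : Finset V} {η η' : Finset (Sym2 V)}
    (hη : η ⊆ touch nb Λ) (hη' : η' ⊆ touch nb Λ) (hagree : η \ inE nb T = η' \ inE nb T)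
    (hT : inner Λ η = T) : inner Λ η' = T := by
  classical
  have hmemT : ∀ v, v ∈ T ↔ v ∈ Λ ∧ ¬ exits Λ η v := fun v => by rw [← hT]; simp [inner]
  have hkeep : ∀ e, e ∉ inE nb T → (e ∈ η ↔ e ∈ η') := by
    intro e he
    have h := Finset.ext_iff.1 hagree e
    simp only [mem_sdiff, he, not_false_eq_true, and_true] at h
    exact h
  have hout : ∀ x z, z ∉ Λ → ∀ w : (SimpleGraph.fromEdgeSet (η : Set (Sym2 V))).Walk x z,
      cl η' x z := by
    intro x z hz w
    induction w with
    | nil => exact SimpleGraph.Reachable.refl _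
    | @cons u v z hadj w ih =>
      refine SimpleGraph.Reachable.trans ?_ (ih hz)
      have huv := (SimpleGraph.fromEdgeSet_adj _).1 hadj
      refine cl_edge huv.2 ((hkeep _ fun hin => ?_).1 huv.1)
      exact ((hmemT v).1 (inE_mem hin (Sym2.mem_mk_right u v))).2 ⟨z, hz, ⟨w⟩⟩
  have h1 : ∀ x, exits Λ η x → exits Λ η' x := fun x ⟨z, hz, ⟨w⟩⟩ => ⟨z, hz, hout x z hz w⟩
  have h2 : ∀ x z, z ∉ Λ → ∀ w : (SimpleGraph.fromEdgeSet (η' : Set (Sym2 V))).Walk x z,
      x ∉ T := by
    intro x z hz w
    induction w with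
    | nil => exact fun h => hz ((hmemT _).1 h).1
    | @cons u v z hadj w ih =>
      intro hu
      have huv := (SimpleGraph.fromEdgeSet_adj _).1 hadj
      have hvT := ih hz
      have hin : s(u, v) ∉ inE nb T := fun hin => hvT (inE_mem hin (Sym2.mem_mk_right u v))
      have hη1 : cl η u v := cl_edge huv.2 ((hkeep _ hin).2 huv.1)
      refine ((hmemT u).1 hu).2 (exits_trans hη1 ?_)
      by_contra hv
      exact hvT ((hmemT v).2 ⟨by_contra fun hvΛ => hv ⟨v, hvΛ, SimpleGraph.Reachable.refl _⟩, hv⟩)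
  ext x
  simp only [inner, mem_filter]
  constructor
  · rintro ⟨hx, hne⟩
    exact (hmemT x).2 ⟨hx, fun h => hne (h1 x h)⟩
  · intro hx
    exact ⟨((hmemT x).1 hx).1, fun ⟨z, hz, ⟨w⟩⟩ => h2 x z hz w hx⟩

open Classical in
/-- The Duminil-Copin–Tassion differential inequality. -/
theorem exitProb_deriv (hl : Labelling G nb) (Λ : Finset V) {o : V} (ho : o ∈ Λ) {p : ℝ}
    (h0 : 0 < p) (h1 : p < 1) (hphi : ∀ T : Finset V, o ∈ T → 1 ≤ phiIn nb T p o) :
    ∃ D, HasDerivAt (fun q => exitProb nb Λ q o) D p ∧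
      1 - exitProb nb Λ p o ≤ p * (1 - p) * D := by
  set E := touch nb Λ with hE
  let f : Finset (Sym2 V) → ℝ := fun η => if exits Λ η o then 1 else 0
  refine ⟨_, hasDerivAt_avg E f h0 h1, ?_⟩
  rw [show ∀ X : ℝ, p * (1 - p) * (X / (1 - p)) = p * X from fun X => by
    have : 1 - p ≠ 0 := by linarith
    field_simp]
  let K : Finset V → Finset (Sym2 V) → ℝ := fun T η =>
    ∑ x ∈ T, ∑ a, if nb x a ∉ T ∧ cl η o x then 1 else 0
  let TT := Λ.powerset.filter fun T => o ∈ T
  have hpt : ∀ η, η ⊆ E → ∑ T ∈ TT, K T (η ∩ inE nb T) * (if inner Λ η = T then 1 else 0)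
      ≤ ∑ e ∈ E \ η, (f (insert e η) - f η) := by
    intro η hη
    by_cases hex : exits Λ η o
    · rw [sum_eq_zero, sum_eq_zero]
      · intro e _
        simp only [f]
        have hex' : exits Λ (insert e η) o :=
          Exists.imp (fun z hz => ⟨hz.1, cl_mono (subset_insert _ _) hz.2⟩) hex
        rw [if_pos hex, if_pos hex', sub_self]
      · intro T hT
        rw [if_neg, mul_zero]
        intro hT'
        have := (mem_filter.1 hT).2
        rw [← hT'] at this
        exact (mem_filter.1 this).2 hex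
    set T := inner Λ η with hTdef
    have hTT : T ∈ TT := mem_filter.2 ⟨mem_powerset.2 (filter_subset _ _), mem_filter.2 ⟨ho, hex⟩⟩
    rw [sum_eq_single_of_mem T hTT (fun T' _ hne => by rw [if_neg fun h => hne h.symm, mul_zero]),
      if_pos rfl, mul_one]
    have hf : ∀ e, f (insert e η) - f η = if exits Λ (insert e η) o then 1 else 0 := fun e => by
      simp [f, hex]
    simp only [hf, K]
    rw [← sum_product', sum_boole, sum_boole]
    refine Nat.cast_le.2 (card_le_card_of_injOn (fun q => s(q.1, nb q.1 q.2)) ?_ ?_)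
    · intro q hq
      simp only [coe_filter, Set.mem_ofPred_eq, mem_product, mem_univ, and_true] at hq ⊢
      obtain ⟨hx, hy, hox⟩ := hq
      obtain ⟨hxΛ, hxne⟩ := mem_filter.1 hx
      have hne := (hl.adj_nb q.1 q.2).ne
      have hyex : exits Λ η (nb q.1 q.2) := by
        by_contra hc
        exact hy (mem_filter.2 ⟨by_contra fun h => hc ⟨_, h, SimpleGraph.Reachable.refl _⟩, hc⟩)
      refine ⟨mem_sdiff.2 ⟨mem_touch hxΛ q.2, fun he => hxne (exits_trans (cl_edge hne he) hyex)⟩, ?_⟩
      obtain ⟨z, hz, hyz⟩ := hyex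
      exact ⟨z, hz, ((cl_mono (inter_subset_left.trans (subset_insert _ _)) hox).trans
        (cl_edge hne (mem_insert_self _ _))).trans (cl_mono (subset_insert _ _) hyz)⟩
    · intro q hq q' hq' h
      simp only [coe_filter, Set.mem_ofPred_eq, mem_product, mem_univ, and_true] at hq hq'
      rcases Sym2.eq_iff.1 h with ⟨e1, e2⟩ | ⟨e1, e2⟩
      · obtain ⟨x, a⟩ := q
        obtain ⟨x', a'⟩ := q'
        simp only at e1 e2
        subst e1
        rw [hl.inj x e2]
      · exact absurd (e1 ▸ hq.1) hq'.2.1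
  refine le_trans ?_ (mul_le_mul_of_nonneg_left (avg_mono E h0.le h1.le hpt) h0.le)
  rw [avg_sum, mul_sum]
  have hfac : ∀ T ∈ TT, avg E p (fun η => K T (η ∩ inE nb T) * if inner Λ η = T then 1 else 0)
      = avg (inE nb T) p (K T) * avg E p (fun η => if inner Λ η = T then 1 else 0) := by
    intro T hT
    have hTΛ : T ⊆ Λ := mem_powerset.1 (mem_filter.1 hT).1
    have hsub : inE nb T ⊆ E := fun e he => by
      obtain ⟨q, hq, rfl⟩ := mem_image.1 (mem_filter.1 he).1
      exact mem_touch (hTΛ (mem_product.1 hq).1) _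
    have hind : ∀ η, η ⊆ E → (if inner Λ η = T then (1 : ℝ) else 0)
        = (if inner Λ (η \ inE nb T) = T then 1 else 0) := fun η hη => by
      refine if_congr ⟨fun h => ?_, fun h => ?_⟩ rfl rfl
      · exact inner_eq hl hη (sdiff_subset.trans hη) (by simp) h
      · exact inner_eq hl (sdiff_subset.trans hη) hη (by simp) h
    rw [avg_congr E p (g := fun η => K T (η ∩ inE nb T)
        * (if inner Λ (η \ inE nb T) = T then 1 else 0)) (fun η hη => by rw [hind η hη]),
      avg_congr E p hind, avg_split hsub p (K T) fun η => if inner Λ η = T then 1 else 0]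
    congr 1
    have := avg_split hsub p (fun _ => (1 : ℝ)) fun η => if inner Λ η = T then 1 else 0
    simp only [one_mul, avg_one] at this
    exact this.symm
  have hK : ∀ T : Finset V, p * avg (inE nb T) p (K T) = phiIn nb T p o := by
    intro T
    simp only [K, phiIn, avg_sum]
    congr 1
    refine sum_congr rfl fun x _ => sum_congr rfl fun a _ => ?_
    by_cases h : nb x a ∉ T
    · rw [if_pos h, tauIn]
      exact avg_congr _ _ fun η _ => by simp [h]
    · rw [if_neg h]
      simp [avg, h]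
  have htot : 1 - exitProb nb Λ p o
      = ∑ T ∈ TT, avg E p (fun η => if inner Λ η = T then 1 else 0) := by
    rw [← avg_sum, exitProb, sub_eq_iff_eq_add, ← avg_add]
    refine (avg_one E p).symm.trans (avg_congr E p fun η _ => ?_)
    rw [sum_ite_eq]
    by_cases h : exits Λ η o
    · rw [if_pos h, if_neg, zero_add]
      intro hm
      simp [TT, inner] at hm
      exact hm.2 h
    · rw [if_neg h, if_pos, add_zero]
      simp [TT, inner, ho, h]
  rw [htot]
  refine sum_le_sum fun T hT => ?_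
  rw [hfac T hT, ← mul_assoc, hK T]
  refine le_mul_of_one_le_left ?_ (hphi T (mem_filter.1 hT).2)
  exact sum_nonneg fun η _ => mul_nonneg (wt_nonneg E h0.le h1.le η) (by
    show (0 : ℝ) ≤ if _ then _ else _
    split_ifs <;> norm_num)

open Classical in
theorem exitProb_le_one (Λ : Finset V) (o : V) {p : ℝ} (h0 : 0 ≤ p) (h1 : p ≤ 1) :
    exitProb nb Λ p o ≤ 1 := by
  refine le_trans (avg_mono (touch nb Λ) h0 h1 (g := fun _ => 1) fun η _ => ?_)
    (avg_one (touch nb Λ) p).le
  show (if exits Λ η o then (1 : ℝ) else 0) ≤ 1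
  split_ifs <;> norm_num

open Classical in
theorem exitProb_nonneg (Λ : Finset V) (o : V) {p : ℝ} (h0 : 0 ≤ p) (h1 : p ≤ 1) :
    0 ≤ exitProb nb Λ p o :=
  sum_nonneg fun η _ => mul_nonneg (wt_nonneg _ h0 h1 η) (by
    show (0 : ℝ) ≤ if _ then _ else _
    split_ifs <;> norm_num)

/-- A uniform lower bound on the exit probability. -/
theorem exitProb_ge (hl : Labelling G nb) (Λ : Finset V) {o : V} (ho : o ∈ Λ) {p₀ p₁ : ℝ}
    (h0 : 0 < p₀) (h01 : p₀ < p₁) (h1 : p₁ < 1)
    (hphi : ∀ p ∈ Set.Icc p₀ p₁, ∀ T : Finset V, o ∈ T → 1 ≤ phiIn nb T p o) :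
    1 - p₀ / p₁ ≤ exitProb nb Λ p₁ o := by
  let g : ℝ → ℝ := fun p => (1 - exitProb nb Λ p o) * (p / (1 - p))
  have hder : ∀ p ∈ Set.Icc p₀ p₁, ∃ D', HasDerivAt g D' p ∧ D' ≤ 0 := by
    intro p hp
    have hp0 : 0 < p := lt_of_lt_of_le h0 hp.1
    have hp1 : p < 1 := lt_of_le_of_lt hp.2 h1
    obtain ⟨D, hD, hineq⟩ := exitProb_deriv hl Λ ho hp0 hp1 (hphi p hp)
    have hq : 1 - p ≠ 0 := by linarith
    have hr : HasDerivAt (fun q : ℝ => q / (1 - q)) (1 / (1 - p) ^ 2) p := by
      refine (((hasDerivAt_id p).div ((hasDerivAt_id p).const_sub 1) hq)).congr_deriv ?_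
      simp
    refine ⟨_, (hD.const_sub 1).mul hr, ?_⟩
    have e : -D * (p / (1 - p)) + (1 - exitProb nb Λ p o) * (1 / (1 - p) ^ 2)
        = ((1 - exitProb nb Λ p o) - p * (1 - p) * D) / (1 - p) ^ 2 := by
      field_simp
      ring
    rw [e]
    exact div_nonpos_of_nonpos_of_nonneg (by linarith) (sq_nonneg _)
  have hanti : AntitoneOn g (Set.Icc p₀ p₁) := by
    refine antitoneOn_of_deriv_nonpos (convex_Icc p₀ p₁) (fun p hp => ?_) (fun p hp => ?_)
      (fun p hp => ?_)
    · obtain ⟨D', h, -⟩ := hder p hp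
      exact h.continuousAt.continuousWithinAt
    · obtain ⟨D', h, -⟩ := hder p (interior_subset hp)
      exact h.differentiableAt.differentiableWithinAt
    · obtain ⟨D', h, hle⟩ := hder p (interior_subset hp)
      rw [h.deriv]; exact hle
  have hg := hanti (Set.left_mem_Icc.2 h01.le) (Set.right_mem_Icc.2 h01.le) h01.le
  have hp1 : 0 < p₁ := h0.trans h01
  have hq0 : 0 < 1 - p₀ := by linarith
  have hq1 : 0 < 1 - p₁ := by linarith
  have hg0 : g p₀ ≤ p₀ / (1 - p₀) :=
    mul_le_of_le_one_left (by positivity)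
      (by linarith [exitProb_nonneg (nb := nb) Λ o h0.le (by linarith)])
  have h3 : (1 - exitProb nb Λ p₁ o) * (p₁ / (1 - p₁)) ≤ p₀ / (1 - p₁) :=
    hg.trans (hg0.trans (div_le_div_of_nonneg_left h0.le hq1 (by linarith)))
  rw [← mul_div_assoc, div_le_div_iff_of_pos_right hq1, ← le_div_iff₀ hp1] at h3
  linarith

end Exit

end Vale.Agent.P165
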