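import Vale.Agent.P165.Main

/-!
# Powers of nonamenable transitive graphs
-/

namespace Vale.Agent.P165

open Finset

variable {V : Type}

/-- The `k`-th power: distinct vertices are adjacent when their distance is at most `k`. -/
def powerGraph (G : SimpleGraph V) (k : ℕ) : SimpleGraph V where
  Adj x y := x ≠ y ∧ ∃ w : G.Walk x y, w.length ≤ k
  symm := ⟨fun _ _ ⟨h, w, hw⟩ => ⟨h.symm, w.reverse, by simpa using hw⟩⟩
  loopless := ⟨fun _ h => h.1 rfl⟩

/-- The closed ball of radius `k`. -/
def pball (G : SimpleGraph V) (k : ℕ) (v : V) : Set V := {y | ∃ w : G.Walk v y, w.length ≤ k}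

variable {G : SimpleGraph V}

theorem mem_pball_self (k : ℕ) (v : V) : v ∈ pball G k v := ⟨.nil, by simp⟩

theorem pball_succ_subset (k : ℕ) (v : V) :
    pball G (k + 1) v ⊆ insert v (⋃ u ∈ G.neighborSet v, pball G k u) := by
  rintro y ⟨w, hw⟩
  cases w with
  | nil => exact Set.mem_insert _ _
  | cons h q =>
    refine Set.mem_insert_of_mem _ (Set.mem_biUnion h ⟨q, ?_⟩)
    simpa using hw

theorem pball_finite (hlf : ∀ v, (G.neighborSet v).Finite) (k : ℕ) :
    ∀ v, (pball G k v).Finite := by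
  induction k with
  | zero =>
    intro v
    refine (Set.finite_singleton v).subset ?_
    rintro y ⟨w, hw⟩
    exact (SimpleGraph.Walk.eq_of_length_eq_zero (Nat.le_zero.1 hw)).symm
  | succ k ih =>
    intro v
    exact (((hlf v).biUnion fun u _ => ih u).insert v).subset (pball_succ_subset k v)

theorem connected_power (hc : G.Connected) {k : ℕ} (hk : 1 ≤ k) : (powerGraph G k).Connected :=
  hc.mono fun _ _ h => ⟨h.ne, h.toWalk, by simpa using hk⟩

/-- An automorphism of `G` is one of every power. -/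
def powerIso (φ : G ≃g G) (k : ℕ) : powerGraph G k ≃g powerGraph G k where
  toEquiv := φ.toEquiv
  map_rel_iff' := by
    intro x y
    constructor
    · rintro ⟨hne, w, hw⟩
      refine ⟨fun e => hne (by rw [e]), (w.map φ.symm.toHom).copy (φ.symm_apply_apply x)
        (φ.symm_apply_apply y), by simpa using hw⟩
    · rintro ⟨hne, w, hw⟩
      exact ⟨fun e => hne (φ.toEquiv.injective e), w.map φ.toHom, by simpa using hw⟩

theorem pball_image (φ : G ≃g G) (k : ℕ) (v : V) : φ '' pball G k v = pball G k (φ v) := by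
  ext y
  constructor
  · rintro ⟨x, ⟨w, hw⟩, rfl⟩
    exact ⟨w.map φ.toHom, by simpa using hw⟩
  · rintro ⟨w, hw⟩
    exact ⟨φ.symm y, ⟨(w.map φ.symm.toHom).copy (φ.symm_apply_apply v) rfl, by simpa using hw⟩,
      φ.apply_symm_apply y⟩

/-- Large powers of a nonamenable transitive graph have a nonuniqueness phase. -/
theorem nonuniqueness_of_large_powers (G : SimpleGraph V) (h : ℝ) (hh : 0 < h)
    (hc : G.Connected) (hlf : ∀ v, (G.neighborSet v).Finite)
    (ht : ∀ u v, ∃ φ : G ≃g G, φ u = v) (he : Expands G h) :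
    ∃ k₀ : ℕ, ∀ k ≥ k₀, pc (powerGraph G k) < pu (powerGraph G k) := by
  classical
  obtain ⟨o⟩ := hc.nonempty
  obtain ⟨C, hC, main⟩ := nonuniqueness_of_edge_expansion 2 (by norm_num)
  set D : ℕ := (G.neighborSet o).ncard with hD
  set b : ℕ → ℕ := fun k => (pball G k o).ncard with hbdef
  have hfin := pball_finite hlf
  have hb : ∀ k v, (pball G k v).ncard = b k := fun k v => by
    obtain ⟨φ, hφ⟩ := ht o v
    rw [← hφ, ← pball_image, Set.ncard_image_of_injective _ φ.injective]
  have hdeg : ∀ v, (G.neighborSet v).ncard = D := fun v => by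
    obtain ⟨φ, hφ⟩ := ht o v
    rw [← hφ, hD, ← Set.ncard_image_of_injective (G.neighborSet o) φ.injective]
    congr 1
    ext y
    constructor
    · intro hy
      refine ⟨φ.symm y, ?_, φ.apply_symm_apply y⟩
      have := φ.symm.map_rel_iff.2 hy
      simpa using this
    · rintro ⟨x, hx, rfl⟩
      exact φ.map_rel_iff.2 hx
  have hgrow : ∀ k, k + 1 ≤ b k := by
    intro k
    induction k with
    | zero => exact (Set.ncard_pos (hfin 0 o)).2 ⟨o, mem_pball_self 0 o⟩
    | succ k ih =>
      have h1 := he (hfin k o).toFinset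
      have hlt : pball G k o ⊂ pball G (k + 1) o := by
        refine ⟨fun y ⟨w, hw⟩ => ⟨w, hw.trans k.le_succ⟩, fun hsub => ?_⟩
        have h0 : vertexBoundary G (hfin k o).toFinset = ∅ := by
          refine Set.eq_empty_of_forall_notMem fun y hy => ?_
          obtain ⟨hy, u, hu, huy⟩ := hy
          obtain ⟨w, hw⟩ := (hfin k o).mem_toFinset.1 hu
          exact hy ((hfin k o).mem_toFinset.2 (hsub ⟨w.concat huy, by simp; omega⟩))
        rw [h0, Set.ncard_empty, Nat.cast_zero] at h1
        have : (0 : ℝ) < ((hfin k o).toFinset.card : ℝ) := by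
          rw [← Set.ncard_eq_toFinset_card _ (hfin k o)]
          exact_mod_cast (Nat.succ_pos k).trans_le ih
        nlinarith
      exact ih.trans_lt (Set.ncard_lt_ncard hlt (hfin (k + 1) o))
  have hstep : ∀ k, b (k + 1) ≤ (D + 1) * b k := by
    intro k
    have h1 := Set.ncard_le_ncard (pball_succ_subset (G := G) k o)
      (((hlf o).biUnion fun u _ => hfin k u).insert o)
    refine h1.trans ((Set.ncard_insert_le _ _).trans ?_)
    have h2 : (⋃ u ∈ G.neighborSet o, pball G k u).ncard ≤ D * b k := by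
      have hset : (⋃ u ∈ G.neighborSet o, pball G k u) =
          ↑((hlf o).toFinset.biUnion fun u => (hfin k u).toFinset) := by simp
      rw [hset, Set.ncard_coe_finset]
      refine (card_biUnion_le).trans ?_
      rw [sum_congr rfl fun u _ => ((Set.ncard_eq_toFinset_card _ (hfin k u)).symm.trans (hb k u))]
      rw [sum_const, smul_eq_mul, ← Set.ncard_eq_toFinset_card _ (hlf o)]
    have := hgrow k
    nlinarith
  set γ : ℝ := h / ((D : ℝ) + 1) ^ 2 with hγdef
  have hγ : 0 < γ := by positivity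
  obtain ⟨k₀, hk₀⟩ := exists_nat_ge (C / γ ^ 12)
  refine ⟨k₀ + 1, fun k hk => ?_⟩
  obtain ⟨j, rfl⟩ : ∃ j, k = j + 1 := ⟨k - 1, by omega⟩
  set H := powerGraph G (j + 1) with hH
  set d : ℕ := b (j + 1) - 1 with hd
  have hHdeg : ∀ v, (H.neighborSet v).encard = d := by
    intro v
    have e : H.neighborSet v = pball G (j + 1) v \ {v} := by
      ext y
      simp only [hH, powerGraph, SimpleGraph.mem_neighborSet, pball, Set.mem_sdiff,
        Set.mem_ofPred_eq, Set.mem_singleton_iff]
      exact ⟨fun ⟨h1, h2⟩ => ⟨h2, Ne.symm h1⟩, fun ⟨h1, h2⟩ => ⟨Ne.symm h2, h1⟩⟩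
    rw [e, ← ((hfin _ v).subset Set.sdiff_subset).cast_ncard_eq,
      Set.ncard_sdiff_singleton_of_mem (mem_pball_self _ v), hb]
  have hq : QuasiTransitive H := ⟨{o}, fun v => by
    obtain ⟨φ, hφ⟩ := ht v o
    exact ⟨powerIso φ _, by simp [powerIso, hφ]⟩⟩
  have hdk : k₀ ≤ d := by
    have := hgrow (j + 1)
    omega
  have hdpos : 0 < d := by have := hgrow (j + 1); omega
  refine main d (γ * d) V H (connected_power hc (by omega)) hHdeg hq (by positivity) ?_ ?_
  · intro A
    have hBfin : (vertexBoundary G A).Finite :=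
      (A.finite_toSet.biUnion fun u _ => hlf u).subset fun v ⟨_, u, hu, huv⟩ =>
        Set.mem_biUnion hu huv
    have hEfin : (edgeBoundary H A).Finite := by
      refine ((A.finite_toSet).prod (A.finite_toSet.biUnion fun u _ => hfin (j + 1) u)).subset ?_
      rintro ⟨x, y⟩ ⟨hx, -, -, w, hw⟩
      exact ⟨hx, Set.mem_biUnion hx ⟨w, hw⟩⟩
    set B := hBfin.toFinset
    have hu : ∀ v ∈ B, ∃ u ∈ A, G.Adj u v := fun v hv => (hBfin.mem_toFinset.1 hv).2
    choose! u huA hadj using hu
    set T := B.sigma fun v => (hfin j (u v)).toFinset with hT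
    set f : (Σ _ : V, V) → V × V := fun p => if p.2 ∈ A then (p.2, p.1) else (u p.1, p.2)
    have hmap : T.image f ⊆ hEfin.toFinset := by
      intro q hq
      obtain ⟨⟨v, z⟩, hp, rfl⟩ := mem_image.1 hq
      obtain ⟨hv, hz⟩ := mem_sigma.1 hp
      obtain ⟨w, hw⟩ := (hfin j (u v)).mem_toFinset.1 hz
      have hvA := (hBfin.mem_toFinset.1 hv).1
      rw [hEfin.mem_toFinset]
      by_cases hzA : z ∈ A
      · simp only [f, hzA, if_true]
        exact ⟨hzA, hvA, fun e : z = v => hvA (e ▸ hzA : v ∈ A), w.reverse.concat (hadj v hv), by simp; omega⟩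
      · simp only [f, hzA, if_false]
        exact ⟨huA v hv, hzA, fun e : u v = z => hzA (e ▸ huA v hv : z ∈ A), w, by omega⟩
    have hfib : ∀ q ∈ T.image f, #({p ∈ T | f p = q}) ≤ D + 1 := by
      rintro ⟨a, c⟩ -
      have hcardN : ((hlf a).toFinset).card = D := by
        rw [← Set.ncard_eq_toFinset_card _ (hlf a), hdeg]
      refine le_trans (card_le_card (t := insert ⟨c, a⟩
        ((hlf a).toFinset.image fun v => (⟨v, c⟩ : Σ _ : V, V))) ?_)
        ((card_insert_le _ _).trans (Nat.add_le_add_right (card_image_le.trans hcardN.le) 1))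
      rintro ⟨v, z⟩ hp
      obtain ⟨hpT, hf⟩ := mem_filter.1 hp
      obtain ⟨hv, -⟩ := mem_sigma.1 hpT
      by_cases hzA : z ∈ A
      · simp only [f, hzA, if_true, Prod.mk.injEq] at hf
        rw [hf.1, hf.2]; exact mem_insert_self _ _
      · simp only [f, hzA, if_false, Prod.mk.injEq] at hf
        refine mem_insert_of_mem (mem_image.2 ⟨v, ?_, by rw [hf.2]⟩)
        rw [(hlf a).mem_toFinset, ← hf.1]
        exact hadj v hv
    have hTcard : T.card = B.card * b j := by
      rw [hT, card_sigma, sum_congr rfl fun v _ =>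
        ((Set.ncard_eq_toFinset_card _ (hfin j (u v))).symm.trans (hb j (u v))), sum_const,
        smul_eq_mul]
    have h2 : B.card * b j ≤ (D + 1) * (edgeBoundary H A).ncard := by
      rw [← hTcard, Set.ncard_eq_toFinset_card _ hEfin]
      exact (card_le_mul_card_image T (D + 1) hfib).trans (Nat.mul_le_mul_left _ (card_le_card hmap))
    have h3 : h * (A.card : ℝ) ≤ (B.card : ℝ) :=
      (he A).trans_eq (by rw [Set.ncard_eq_toFinset_card _ hBfin])
    have h4 : (B.card : ℝ) * b j ≤ ((D : ℝ) + 1) * (edgeBoundary H A).ncard := by exact_mod_cast h2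
    have h5 : (d : ℝ) ≤ ((D : ℝ) + 1) * b j := by
      exact_mod_cast (Nat.sub_le _ _).trans (hstep j)
    have hD1 : (0 : ℝ) < (D : ℝ) + 1 := by positivity
    have e : γ * ((D : ℝ) + 1) ^ 2 = h := by rw [hγdef, div_mul_cancel₀ _ (pow_ne_zero 2 hD1.ne')]
    have hA0 : (0 : ℝ) ≤ (A.card : ℝ) := Nat.cast_nonneg _
    have hb0 : (0 : ℝ) ≤ (b j : ℝ) := Nat.cast_nonneg _
    refine le_of_mul_le_mul_left ?_ hD1
    calc ((D : ℝ) + 1) * (γ * d * A.card)
        ≤ ((D : ℝ) + 1) * (γ * (((D : ℝ) + 1) * b j) * A.card) :=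
          mul_le_mul_of_nonneg_left
            (mul_le_mul_of_nonneg_right (mul_le_mul_of_nonneg_left h5 hγ.le) hA0) hD1.le
      _ = γ * ((D : ℝ) + 1) ^ 2 * A.card * b j := by ring
      _ = h * A.card * b j := by rw [e]
      _ ≤ B.card * b j := mul_le_mul_of_nonneg_right h3 hb0
      _ ≤ _ := h4
  · have h6 : C / γ ^ 12 ≤ (d : ℝ) := hk₀.trans (by exact_mod_cast hdk)
    rw [div_le_iff₀ (by positivity)] at h6
    rw [show 5 * 2 + 1 = 11 from rfl, show 6 * 2 = 12 from rfl, mul_pow]
    calc C * (d : ℝ) ^ 11 ≤ (d : ℝ) * γ ^ 12 * (d : ℝ) ^ 11 :=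
          mul_le_mul_of_nonneg_right h6 (by positivity)
      _ = _ := by ring

end Vale.Agent.P165
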