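import Vale.Agent.P165.Defs

/-!
# Edge labellings, Cheeger's inequality and walk counts
-/

namespace Vale.Agent.P165

open Finset

variable {V ι : Type} [DecidableEq V] [Fintype ι]

/-- `nb v` lists the neighbours of `v`, possibly with repetitions. -/
structure Listing (G : SimpleGraph V) (nb : V → ι → V) : Prop where
  adj : ∀ u v, G.Adj u v ↔ ∃ a, nb u a = v

/-- `nb v` lists the neighbours of `v` without repetition. -/
structure Labelling (G : SimpleGraph V) (nb : V → ι → V) : Prop where
  inj : ∀ v, Function.Injective (nb v)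
  adj : ∀ u v, G.Adj u v ↔ ∃ a, nb u a = v

/-- The adjacency form on a finite set. -/
def form (nb : V → ι → V) (t : Finset V) (f g : V → ℝ) : ℝ :=
  ∑ v ∈ t, ∑ a, f v * g (nb v a)

/-- The adjacency form is bounded by `L` times the squared norm. -/
def FormBound (nb : V → ι → V) (L : ℝ) : Prop :=
  ∀ (t : Finset V) (f : V → ℝ), (∀ v, v ∉ t → f v = 0) →
    |form nb t f f| ≤ L * ∑ v ∈ t, f v ^ 2

variable {G : SimpleGraph V} {nb : V → ι → V}

omit [Fintype ι] [DecidableEq V] in
theorem Labelling.adj_nb (hl : Labelling G nb) (v : V) (a : ι) : G.Adj v (nb v a) :=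
  (hl.adj _ _).2 ⟨a, rfl⟩

omit [Fintype ι] [DecidableEq V] in
theorem Listing.adj_nb (hl : Listing G nb) (v : V) (a : ι) : G.Adj v (nb v a) :=
  (hl.adj _ _).2 ⟨a, rfl⟩

omit [Fintype ι] [DecidableEq V] in
/-- A labelling is a listing. -/
theorem Labelling.listing (hl : Labelling G nb) : Listing G nb :=
  ⟨hl.adj⟩

omit [DecidableEq V] in
theorem Labelling.sum_nb [DecidableRel G.Adj] (hl : Labelling G nb) (t : Finset V) (v : V)
    (φ : V → ℝ) (hφ : ∀ w, w ∉ t → φ w = 0) :
    ∑ a, φ (nb v a) = ∑ w ∈ t, if G.Adj v w then φ w else 0 := by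
  classical
  calc ∑ a, φ (nb v a) = ∑ w ∈ univ.image (nb v), φ w :=
        (sum_image fun a _ b _ h => hl.inj v h).symm
    _ = ∑ w ∈ t.filter (fun w => G.Adj v w), φ w := by
        refine (sum_subset ?_ ?_).symm
        · intro w hw
          obtain ⟨a, ha⟩ := (hl.adj v w).1 (mem_filter.1 hw).2
          exact mem_image.2 ⟨a, mem_univ _, ha⟩
        · intro w hw hw'
          apply hφ
          intro hwt
          obtain ⟨a, -, rfl⟩ := mem_image.1 hw
          exact hw' (mem_filter.2 ⟨hwt, hl.adj_nb v a⟩)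
    _ = _ := sum_filter _ _

omit [DecidableEq V] in
theorem form_comm (hl : Labelling G nb) (t : Finset V) (f g : V → ℝ)
    (hf : ∀ v, v ∉ t → f v = 0) (hg : ∀ v, v ∉ t → g v = 0) :
    form nb t f g = form nb t g f := by
  classical
  have key : ∀ f g : V → ℝ, (∀ v, v ∉ t → g v = 0) →
      form nb t f g = ∑ v ∈ t, ∑ w ∈ t, if G.Adj v w then f v * g w else 0 := by
    intro f g hg
    refine sum_congr rfl fun v _ => ?_
    exact hl.sum_nb t v (fun w => f v * g w) fun w hw => by simp [hg w hw]
  rw [key f g hg, key g f hf, sum_comm]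
  refine sum_congr rfl fun v _ => sum_congr rfl fun w _ => ?_
  by_cases h : G.Adj v w
  · rw [if_pos h, if_pos h.symm, mul_comm]
  · rw [if_neg h, if_neg fun h' => h h'.symm]

omit [DecidableEq V] in
/-- The co-area inequality. -/
theorem coarea (hl : Labelling G nb) {h : ℝ} (he : EdgeExpands G h) :
    ∀ (n : ℕ) (t : Finset V) (F : V → ℝ), (∀ v, 0 ≤ F v) → (∀ v, v ∉ t → F v = 0) →
      (t.filter fun v => F v ≠ 0).card ≤ n →
      h * ∑ v ∈ t, F v ≤ ∑ v ∈ t, ∑ a, max 0 (F v - F (nb v a)) := by
  classical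
  intro n
  induction n with
  | zero =>
    intro t F _ hF hc
    have h0 : ∀ v ∈ t, F v = 0 := by
      intro v hv
      by_contra hne
      have : 0 < (t.filter fun v => F v ≠ 0).card := card_pos.2 ⟨v, mem_filter.2 ⟨hv, hne⟩⟩
      omega
    rw [sum_eq_zero h0, mul_zero]
    exact sum_nonneg fun v _ => sum_nonneg fun a _ => le_max_left _ _
  | succ n ih =>
    intro t F hF0 hF hc
    set A := t.filter fun v => F v ≠ 0 with hA
    rcases A.eq_empty_or_nonempty with hAe | hAne
    · exact ih t F hF0 hF (by rw [← hA, hAe]; simp)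
    obtain ⟨v0, hv0, hmin⟩ := exists_min_image A F hAne
    set m := F v0 with hm
    have hm0 : 0 ≤ m := hF0 v0
    let F1 : V → ℝ := fun v => if v ∈ A then F v - m else 0
    have hout : ∀ v, v ∉ A → F v = 0 := by
      intro v hv
      by_cases hvt : v ∈ t
      · by_contra hne
        exact hv (mem_filter.2 ⟨hvt, hne⟩)
      · exact hF v hvt
    have hF10 : ∀ v, 0 ≤ F1 v := by
      intro v
      by_cases hv : v ∈ A
      · have := hmin v hv
        simp only [F1, if_pos hv]; linarith
      · simp [F1, hv]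
    have hF1 : ∀ v, v ∉ t → F1 v = 0 := fun v hv => by
      have : v ∉ A := fun h => hv (mem_filter.1 h).1
      simp [F1, this]
    have hsub : (t.filter fun v => F1 v ≠ 0) ⊆ A.erase v0 := by
      intro v hv
      obtain ⟨-, hv2⟩ := mem_filter.1 hv
      have hvA : v ∈ A := by
        by_contra hc'
        exact hv2 (by simp [F1, hc'])
      refine mem_erase.2 ⟨?_, hvA⟩
      rintro rfl
      exact hv2 (by simp only [F1, if_pos hv0, ← hm, sub_self])
    have hcard : (t.filter fun v => F1 v ≠ 0).card ≤ n := by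
      have h1 := card_le_card hsub
      rw [card_erase_of_mem hv0] at h1
      omega
    have hih := ih t F1 hF10 hF1 hcard
    have hsplit : ∀ v, F v = F1 v + if v ∈ A then m else 0 := by
      intro v
      by_cases hv : v ∈ A
      · simp [F1, hv]
      · simp [F1, hv, hout v hv]
    have hterm : ∀ v a, max 0 (F1 v - F1 (nb v a))
        + m * (if v ∈ A ∧ nb v a ∉ A then (1 : ℝ) else 0) ≤ max 0 (F v - F (nb v a)) := by
      intro v a
      have hv' := hF10 v
      have hw' := hF10 (nb v a)
      by_cases hv : v ∈ A <;> by_cases hw : nb v a ∈ A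
      · simp [F1, hv, hw]
      · have h1 : F1 (nb v a) = 0 := by simp [F1, hw]
        rw [hsplit v, hsplit (nb v a), h1, if_pos hv, if_neg hw, if_pos ⟨hv, hw⟩,
          max_eq_right (by linarith), max_eq_right (by linarith)]
        linarith
      · have h1 : F1 v = 0 := by simp [F1, hv]
        rw [hsplit v, h1, if_neg hv, if_neg (fun h => hv h.1),
          max_eq_left (by linarith), mul_zero, add_zero]
        exact le_max_left _ _
      · simp [F1, hv, hw, hout v hv, hout _ hw]
    have hbd : h * (A.card : ℝ)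
        ≤ ∑ v ∈ t, ∑ a, if v ∈ A ∧ nb v a ∉ A then (1 : ℝ) else 0 := by
      refine (he A).trans ?_
      let S := (A ×ˢ (univ : Finset ι)).filter fun q => nb q.1 q.2 ∉ A
      have hsub' : edgeBoundary G A ⊆ ↑(S.image fun q => (q.1, nb q.1 q.2)) := by
        rintro ⟨u, w⟩ ⟨hu, hw, huw⟩
        obtain ⟨a, ha⟩ := (hl.adj u w).1 huw
        rw [coe_image]
        exact ⟨(u, a), by simp [S, hu, ha, hw], by simp [ha]⟩
      have h1 : (edgeBoundary G A).ncard ≤ S.card := by
        refine (Set.ncard_le_ncard hsub' (finite_toSet _)).trans ?_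
        rw [Set.ncard_coe_finset]
        exact card_image_le
      calc ((edgeBoundary G A).ncard : ℝ) ≤ (S.card : ℝ) := by exact_mod_cast h1
        _ = ∑ q ∈ A ×ˢ (univ : Finset ι), if nb q.1 q.2 ∉ A then (1 : ℝ) else 0 := by
            rw [sum_boole]
        _ = ∑ v ∈ A, ∑ a, if v ∈ A ∧ nb v a ∉ A then (1 : ℝ) else 0 := by
            rw [sum_product]
            exact sum_congr rfl fun v hv => sum_congr rfl fun a _ => by simp [hv]
        _ ≤ _ := by
            refine sum_le_sum_of_subset_of_nonneg (filter_subset _ _) fun v _ _ => ?_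
            exact sum_nonneg fun a _ => by split_ifs <;> norm_num
    have hsumA : ∑ v ∈ t, F v = ∑ v ∈ t, F1 v + m * A.card := by
      simp only [hsplit, sum_add_distrib]
      congr 1
      rw [sum_ite_mem, inter_eq_right.2 (filter_subset _ _), sum_const, nsmul_eq_mul, mul_comm]
    calc h * ∑ v ∈ t, F v = h * ∑ v ∈ t, F1 v + m * (h * A.card) := by rw [hsumA]; ring
      _ ≤ ∑ v ∈ t, ∑ a, max 0 (F1 v - F1 (nb v a))
          + m * ∑ v ∈ t, ∑ a, (if v ∈ A ∧ nb v a ∉ A then (1 : ℝ) else 0) :=
          add_le_add hih (mul_le_mul_of_nonneg_left hbd hm0)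
      _ = ∑ v ∈ t, ∑ a, (max 0 (F1 v - F1 (nb v a))
          + m * if v ∈ A ∧ nb v a ∉ A then (1 : ℝ) else 0) := by
          simp only [mul_sum, sum_add_distrib]
      _ ≤ _ := sum_le_sum fun v _ => sum_le_sum fun a _ => hterm v a

/-- Cheeger's inequality: an expanding graph of degree `d` has adjacency form at most
`d - h²/(4d)`. -/
theorem formBound_of_expands (hl : Labelling G nb) {h : ℝ} (hh : 0 < h) (he : EdgeExpands G h)
    (hd : 0 < Fintype.card ι) :
    FormBound nb ((Fintype.card ι : ℝ) - h ^ 2 / (4 * Fintype.card ι)) := by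
  classical
  intro s f hf
  set d : ℝ := (Fintype.card ι : ℝ) with hdd
  have hd' : (0 : ℝ) < d := by rw [hdd]; exact_mod_cast hd
  -- enlarge the support to a set containing the neighbours
  let g : V → ℝ := fun v => |f v|
  have hg0 : ∀ v, 0 ≤ g v := fun v => abs_nonneg _
  have hgs : ∀ v, v ∉ s → g v = 0 := fun v hv => by simp [g, hf v hv]
  have habs : |form nb s f f| ≤ form nb s g g := by
    refine (abs_sum_le_sum_abs _ _).trans (sum_le_sum fun v _ => ?_)
    exact (abs_sum_le_sum_abs _ _).trans (le_of_eq (sum_congr rfl fun a _ => abs_mul _ _))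
  have hN : ∑ v ∈ s, f v ^ 2 = ∑ v ∈ s, g v ^ 2 :=
    sum_congr rfl fun v _ => (sq_abs _).symm
  rw [hN]
  refine habs.trans ?_
  set N := ∑ v ∈ s, g v ^ 2 with hNdef
  set M := form nb s g g with hMdef
  -- squares of neighbours
  have hnbsq : ∑ v ∈ s, ∑ a, g (nb v a) ^ 2 ≤ d * N := by
    let one : V → ℝ := fun v => if v ∈ s then 1 else 0
    have hgs2 : ∀ v, v ∉ s → g v ^ 2 = 0 := fun v hv => by simp [hgs v hv]
    have h1 : ∑ v ∈ s, ∑ a, g (nb v a) ^ 2 = form nb s one (fun v => g v ^ 2) :=
      sum_congr rfl fun v hv => sum_congr rfl fun a _ => by simp [one, hv]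
    rw [h1, form_comm hl s one _ (fun v hv => by simp [one, hv]) hgs2, hNdef, mul_sum]
    refine sum_le_sum fun v _ => ?_
    calc ∑ a, g v ^ 2 * one (nb v a) ≤ ∑ _a : ι, g v ^ 2 := by
          refine sum_le_sum fun a _ => ?_
          by_cases hw : nb v a ∈ s
          · simp [one, hw]
          · simp [one, hw, sq_nonneg]
      _ = d * g v ^ 2 := by rw [sum_const, card_univ, nsmul_eq_mul, hdd]
  have hvsq : ∑ v ∈ s, ∑ _a : ι, g v ^ 2 = d * N := by
    rw [hNdef, mul_sum]
    exact sum_congr rfl fun v _ => by rw [sum_const, card_univ, nsmul_eq_mul, hdd]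
  have hMN : M ≤ d * N := by
    have h1 : ∀ v ∈ s, ∀ a ∈ (univ : Finset ι),
        g v * g (nb v a) ≤ (g v ^ 2 + g (nb v a) ^ 2) / 2 :=
      fun v _ a _ => by nlinarith [sq_nonneg (g v - g (nb v a))]
    have h2 : M ≤ ∑ v ∈ s, ∑ a, (g v ^ 2 + g (nb v a) ^ 2) / 2 :=
      sum_le_sum fun v hv => sum_le_sum fun a ha => h1 v hv a ha
    simp only [← sum_div, sum_add_distrib] at h2
    linarith
  have hco := coarea hl he _ s (fun v => g v ^ 2) (fun v => sq_nonneg _)
    (fun v hv => by simp [hgs v hv]) le_rfl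
  -- the Cauchy-Schwarz step
  let u : V → ι → ℝ := fun v a => max 0 (g v - g (nb v a))
  let w : V → ι → ℝ := fun v a => g v + g (nb v a)
  have hpos : ∑ v ∈ s, ∑ a, u v a ^ 2 ≤ d * N - M := by
    let U : V → V → ℝ := fun v w => if G.Adj v w then max 0 (g v - g w) ^ 2 else 0
    -- over a set containing all neighbours of the support
    let T := s ∪ (s ×ˢ (univ : Finset ι)).image fun q => nb q.1 q.2
    have hsT : s ⊆ T := subset_union_left
    have hgT : ∀ v, v ∉ T → g v = 0 := fun v hv => hgs v fun h => hv (hsT h)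
    have hnbT : ∀ v ∈ s, ∀ a, nb v a ∈ T := fun v hv a =>
      mem_union_right _ (mem_image.2 ⟨(v, a), by simp [hv], rfl⟩)
    have hback : ∀ v ∈ T, ∀ w, G.Adj v w → g w ≠ 0 → w ∈ s := fun v _ w _ hw => by
      by_contra h; exact hw (hgs w h)
    have h1 : ∑ v ∈ s, ∑ a, u v a ^ 2 ≤ ∑ v ∈ T, ∑ w ∈ T, U v w := by
      refine le_trans (le_of_eq (sum_congr rfl fun v hv => ?_))
        (sum_le_sum_of_subset_of_nonneg hsT fun v _ _ => sum_nonneg fun w _ => by
          simp only [U]; split_ifs <;> positivity)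
      calc ∑ a, u v a ^ 2 = ∑ w ∈ univ.image (nb v), max 0 (g v - g w) ^ 2 :=
            (sum_image (f := fun w => max 0 (g v - g w) ^ 2) fun a _ b _ h => hl.inj v h).symm
        _ = ∑ w ∈ T.filter (fun w => G.Adj v w), max 0 (g v - g w) ^ 2 := by
            congr 1
            ext w
            simp only [mem_image, mem_univ, true_and, mem_filter]
            constructor
            · rintro ⟨a, rfl⟩; exact ⟨hnbT v hv a, hl.adj_nb v a⟩
            · intro h; exact (hl.adj v w).1 h.2
        _ = ∑ w ∈ T, U v w := sum_filter _ _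
    have h2 : 2 * ∑ v ∈ T, ∑ w ∈ T, U v w
        = ∑ v ∈ T, ∑ w ∈ T, if G.Adj v w then (g v - g w) ^ 2 else 0 := by
      rw [two_mul]
      nth_rewrite 2 [sum_comm]
      rw [← sum_add_distrib]
      refine sum_congr rfl fun v _ => ?_
      rw [← sum_add_distrib]
      refine sum_congr rfl fun w _ => ?_
      simp only [U]
      by_cases h : G.Adj v w
      · rw [if_pos h, if_pos h.symm, if_pos h]
        rcases le_total (g v) (g w) with h' | h'
        · rw [max_eq_left (by linarith), max_eq_right (by linarith)]; ring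
        · rw [max_eq_right (by linarith), max_eq_left (by linarith)]; ring
      · rw [if_neg h, if_neg fun h' => h h'.symm, if_neg h]; ring
    have hdeg : ∀ v ∈ T, ∑ w ∈ T, (if G.Adj v w then g v ^ 2 else 0) ≤ d * g v ^ 2 := by
      intro v _
      rw [← sum_filter, sum_const, nsmul_eq_mul]
      refine mul_le_mul_of_nonneg_right ?_ (sq_nonneg _)
      rw [hdd]
      have : (T.filter fun w => G.Adj v w).card ≤ (univ.image (nb v)).card :=
        card_le_card fun w hw => by
          obtain ⟨a, ha⟩ := (hl.adj v w).1 (mem_filter.1 hw).2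
          exact mem_image.2 ⟨a, mem_univ _, ha⟩
      exact_mod_cast this.trans card_image_le
    have hM : M = ∑ v ∈ T, ∑ w ∈ T, if G.Adj v w then g v * g w else 0 := by
      rw [hMdef]
      have e : form nb s g g = form nb T g g :=
        sum_subset hsT fun v _ hv => by simp [hgs v hv]
      rw [e]
      refine sum_congr rfl fun v _ => ?_
      exact hl.sum_nb T v (fun w => g v * g w) fun w hw => by simp [hgT w hw]
    have hNT : N = ∑ v ∈ T, g v ^ 2 :=
      sum_subset hsT fun v _ hv => by simp [hgs v hv]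
    have h3 : ∑ v ∈ T, ∑ w ∈ T, (if G.Adj v w then (g v - g w) ^ 2 else 0)
        ≤ 2 * (d * N) - 2 * M := by
      have e : ∀ v w : V, (if G.Adj v w then (g v - g w) ^ 2 else 0)
          = (if G.Adj v w then g v ^ 2 else 0) + (if G.Adj w v then g w ^ 2 else 0)
            - 2 * (if G.Adj v w then g v * g w else 0) := by
        intro v w
        by_cases h : G.Adj v w
        · simp only [if_pos h, if_pos h.symm]; ring
        · simp [if_neg h, if_neg fun h' => h (SimpleGraph.Adj.symm h')]
      simp only [e, sum_sub_distrib, sum_add_distrib, ← mul_sum]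
      rw [← hM]
      have c : ∑ v ∈ T, ∑ w ∈ T, (if G.Adj w v then g w ^ 2 else 0)
          = ∑ v ∈ T, ∑ w ∈ T, (if G.Adj v w then g v ^ 2 else 0) := sum_comm
      have d1 : ∑ v ∈ T, ∑ w ∈ T, (if G.Adj v w then g v ^ 2 else 0) ≤ d * N := by
        rw [hNT, mul_sum]; exact sum_le_sum hdeg
      rw [c]; linarith
    linarith
  have hw2 : ∑ v ∈ s, ∑ a, w v a ^ 2 ≤ 4 * (d * N) := by
    have : ∑ v ∈ s, ∑ a, w v a ^ 2 ≤ ∑ v ∈ s, ∑ a, (2 * g v ^ 2 + 2 * g (nb v a) ^ 2) :=
      sum_le_sum fun v _ => sum_le_sum fun a _ => by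
        simp only [w]; nlinarith [sq_nonneg (g v - g (nb v a))]
    simp only [sum_add_distrib, ← mul_sum] at this
    linarith
  have hle : h * N ≤ ∑ v ∈ s, ∑ a, u v a * w v a := by
    refine hco.trans (sum_le_sum fun v _ => sum_le_sum fun a _ => ?_)
    simp only [u, w]
    have := hg0 v
    have := hg0 (nb v a)
    refine max_le (mul_nonneg (le_max_left _ _) (by linarith)) ?_
    calc g v ^ 2 - g (nb v a) ^ 2 = (g v - g (nb v a)) * (g v + g (nb v a)) := by ring
      _ ≤ _ := mul_le_mul_of_nonneg_right (le_max_right _ _) (by linarith)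
  have hcs : (∑ v ∈ s, ∑ a, u v a * w v a) ^ 2
      ≤ (∑ v ∈ s, ∑ a, u v a ^ 2) * ∑ v ∈ s, ∑ a, w v a ^ 2 := by
    simp only [← sum_product']
    exact sum_mul_sq_le_sq_mul_sq _ _ _
  have hN0 : 0 ≤ N := sum_nonneg fun v _ => sq_nonneg _
  have hu0 : 0 ≤ ∑ v ∈ s, ∑ a, u v a ^ 2 := sum_nonneg fun v _ => sum_nonneg fun a _ => sq_nonneg _
  have hkey : (h * N) ^ 2 ≤ (d * N - M) * (4 * (d * N)) := by
    refine ((pow_le_pow_left₀ (by positivity) hle 2).trans hcs).trans ?_
    exact mul_le_mul hpos hw2 (sum_nonneg fun v _ => sum_nonneg fun a _ => sq_nonneg _)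
      (hu0.trans hpos)
  rcases eq_or_lt_of_le hN0 with h0 | h0
  · rw [← h0] at hMN ⊢; linarith
  · have h5 : h ^ 2 * N ≤ (d * N - M) * (4 * d) := by
      by_contra hcon
      nlinarith
    have h6 : h ^ 2 / (4 * d) * N ≤ d * N - M := by
      rw [div_mul_eq_mul_div, div_le_iff₀ (by positivity)]
      linarith
    linarith

/-- The form bound passes to Cartesian products. -/
theorem formBound_prod {I : Type} [Fintype I] [DecidableEq I] {V : I → Type}
    [∀ i, DecidableEq (V i)] {ι : Type} [Fintype ι] (nb : ∀ i, V i → ι → V i)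
    (o : ∀ i, V i) {L : ℝ} (hb : ∀ i, FormBound (nb i) L) :
    FormBound (fun (x : ∀ i, V i) (q : I × ι) => Function.update x q.1 (nb q.1 (x q.1) q.2))
      (Fintype.card I * L) := by
  classical
  intro t f hf
  have h1 : form (fun (x : ∀ i, V i) (q : I × ι) => Function.update x q.1 (nb q.1 (x q.1) q.2))
      t f f = ∑ i, ∑ x ∈ t, ∑ a, f x * f (Function.update x i (nb i (x i) a)) := by
    rw [form, sum_comm (s := (univ : Finset I))]
    exact sum_congr rfl fun x _ => Fintype.sum_prod_type _
  have h2 : ∀ i, |∑ x ∈ t, ∑ a, f x * f (Function.update x i (nb i (x i) a))|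
      ≤ L * ∑ x ∈ t, f x ^ 2 := by
    intro i
    let key : (∀ i, V i) → (∀ i, V i) := fun x => Function.update x i (o i)
    rw [← sum_fiberwise_of_maps_to (g := key) (fun x hx => mem_image_of_mem key hx)
      (fun x => ∑ a, f x * f (Function.update x i (nb i (x i) a))),
      ← sum_fiberwise_of_maps_to (g := key) (fun x hx => mem_image_of_mem key hx)
      (fun x => f x ^ 2), mul_sum]
    refine (abs_sum_le_sum_abs _ _).trans (sum_le_sum fun z hz => ?_)
    have hrec : ∀ x, key x = z → Function.update z i (x i) = x := by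
      intro x hx
      rw [← hx]
      simp [key]
    have hinj : Set.InjOn (fun x : ∀ i, V i => x i) ↑(t.filter fun x => key x = z) := by
      intro x hx y hy hxy
      rw [← hrec x (mem_filter.1 hx).2, ← hrec y (mem_filter.1 hy).2]
      exact congrArg _ hxy
    let g : V i → ℝ := fun v => f (Function.update z i v)
    let tz := (t.filter fun x => key x = z).image fun x => x i
    have hg : ∀ v, v ∉ tz → g v = 0 := by
      intro v hv
      apply hf
      intro hmem
      apply hv
      refine mem_image.2 ⟨_, mem_filter.2 ⟨hmem, ?_⟩, Function.update_self _ _ _⟩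
      obtain ⟨x, -, hx⟩ := mem_image.1 hz
      rw [← hx]
      simp [key]
    have hb' := hb i tz g hg
    rw [form, sum_image hinj, sum_image hinj] at hb'
    have e1 : ∀ x ∈ t.filter (fun x => key x = z),
        ∑ a, f x * f (Function.update x i (nb i (x i) a))
          = ∑ a, g (x i) * g (nb i (x i) a) := by
      intro x hx
      have := hrec x (mem_filter.1 hx).2
      refine sum_congr rfl fun a _ => ?_
      simp only [g, this]
      congr 2
      conv_lhs => rw [← this]
      simp
    have e2 : ∀ x ∈ t.filter (fun x => key x = z), f x ^ 2 = g (x i) ^ 2 := by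
      intro x hx
      simp only [g, hrec x (mem_filter.1 hx).2]
    rw [sum_congr rfl e1, sum_congr rfl e2]
    exact hb'
  rw [h1]
  refine (abs_sum_le_sum_abs _ _).trans ((sum_le_sum fun i _ => h2 i).trans ?_)
  rw [sum_const, card_univ, nsmul_eq_mul, mul_assoc]

variable (nb) in
/-- Number of walks of length `n` between two vertices. -/
def walkCount : ℕ → V → V → ℝ
  | 0, y, v => if v = y then 1 else 0
  | n + 1, y, v => ∑ a, walkCount n y (nb v a)

variable (nb) in
/-- The vertices from which a walk of length `n` can end at `y`. -/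
def walkBall : ℕ → V → Finset V
  | 0, y => {y}
  | n + 1, y => (walkBall n y ×ˢ (univ : Finset ι)).image fun q => nb q.1 q.2

theorem walkCount_eq_zero (hl : Labelling G nb) : ∀ n y v,
    v ∉ walkBall nb n y → walkCount nb n y v = 0
  | 0, y, v, hv => by
      simp [walkBall] at hv; simp [walkCount, hv]
  | n + 1, y, v, hv => by
      rw [walkCount]
      refine sum_eq_zero fun a _ => walkCount_eq_zero hl n y _ fun hmem => hv ?_
      obtain ⟨b, hb⟩ := (hl.adj (nb v a) v).1 (hl.adj_nb v a).symm
      exact mem_image.2 ⟨(nb v a, b), by simp [hmem], hb⟩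

theorem walkCount_sq_le (hl : Labelling G nb) {L : ℝ} (hL : 0 < L) (hb : FormBound nb L)
    (y : V) : ∀ (n : ℕ) (t : Finset V), ∑ v ∈ t, walkCount nb n y v ^ 2 ≤ L ^ (2 * n) := by
  classical
  intro n
  induction n with
  | zero =>
    intro t
    simp only [mul_zero, pow_zero, walkCount, ite_pow, one_pow, ne_eq, OfNat.ofNat_ne_zero,
      not_false_eq_true, zero_pow, sum_ite_eq']
    split_ifs <;> norm_num
  | succ n ih =>
    intro t
    let f := walkCount nb n y
    let u := walkCount nb (n + 1) y
    let T := t ∪ walkBall nb n y ∪ walkBall nb (n + 1) y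
    have hf : ∀ v, v ∉ T → f v = 0 := fun v hv =>
      walkCount_eq_zero hl n y v fun h => hv (by simp [T, h])
    have hu : ∀ v, v ∉ T → u v = 0 := fun v hv =>
      walkCount_eq_zero hl (n + 1) y v fun h => hv (by simp [T, h])
    set U := ∑ v ∈ T, u v ^ 2 with hU
    set F := ∑ v ∈ T, f v ^ 2 with hF
    have hUe : U = form nb T u f := by
      refine sum_congr rfl fun v _ => ?_
      rw [← mul_sum, pow_two]
      rfl
    have hsym := form_comm hl T u f hu hf
    set c := L⁻¹ with hc
    have hp := (abs_le.1 (hb T (fun v => c * u v + f v) fun v hv => by simp [hu v hv, hf v hv])).2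
    have hm := (abs_le.1 (hb T (fun v => c * u v - f v) fun v hv => by simp [hu v hv, hf v hv])).1
    have hexp : form nb T (fun v => c * u v + f v) (fun v => c * u v + f v)
        - form nb T (fun v => c * u v - f v) (fun v => c * u v - f v)
        = 2 * c * form nb T u f + 2 * c * form nb T f u := by
      simp only [form, mul_sum, ← sum_sub_distrib, ← sum_add_distrib]
      exact sum_congr rfl fun v _ => sum_congr rfl fun a _ => by ring
    have hnorm : ∑ v ∈ T, (c * u v + f v) ^ 2 + ∑ v ∈ T, (c * u v - f v) ^ 2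
        = 2 * c ^ 2 * U + 2 * F := by
      simp only [hU, hF, mul_sum, ← sum_add_distrib]
      exact sum_congr rfl fun v _ => by ring
    have h4 : 4 * c * U ≤ L * (2 * c ^ 2 * U + 2 * F) := by
      rw [← hnorm, mul_add]
      rw [← hsym, ← hUe] at hexp
      linarith
    have h5 : U ≤ L ^ 2 * F := by
      have hLc : L * c = 1 := mul_inv_cancel₀ hL.ne'
      have := mul_le_mul_of_nonneg_left h4 hL.le
      have e1 : L * (4 * c * U) = 4 * U := by linear_combination (4 * U) * hLc
      have e2 : L * (L * (2 * c ^ 2 * U + 2 * F)) = 2 * U + 2 * (L ^ 2 * F) := by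
        linear_combination (2 * U * (L * c + 1)) * hLc
      linarith
    calc ∑ v ∈ t, walkCount nb (n + 1) y v ^ 2 ≤ U :=
          sum_le_sum_of_subset_of_nonneg (fun v hv => by simp [T, hv]) fun v _ _ => sq_nonneg _
      _ ≤ L ^ 2 * F := h5
      _ ≤ L ^ 2 * L ^ (2 * n) := mul_le_mul_of_nonneg_left (ih T) (sq_nonneg L)
      _ = L ^ (2 * (n + 1)) := by ring

theorem walkCount_le (hl : Labelling G nb) {L : ℝ} (hL : 0 < L) (hb : FormBound nb L)
    (n : ℕ) (y v : V) : walkCount nb n y v ≤ L ^ n := by
  have h := walkCount_sq_le hl hL hb y n {v}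
  rw [sum_singleton, pow_mul'] at h
  exact (abs_le_of_sq_le_sq' h (pow_nonneg hL.le n)).2

omit [DecidableEq V] in
/-- Vertex expansion gives edge expansion. -/
theorem edgeExpands_of_expands (hl : Labelling G nb) {h : ℝ} (he : Expands G h) :
    EdgeExpands G h := by
  classical
  intro A
  refine (he A).trans (Nat.cast_le.2 ?_)
  have hfin : (edgeBoundary G A).Finite :=
    ((A ×ˢ (univ : Finset ι)).image fun q => (q.1, nb q.1 q.2)).finite_toSet.subset (by
      rintro ⟨u, w⟩ ⟨hu, hw, huw⟩
      obtain ⟨a, ha⟩ := (hl.adj u w).1 huw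
      exact mem_image.2 ⟨(u, a), by simp [hu], by simp [ha]⟩)
  refine le_trans (Set.ncard_le_ncard ?_ (hfin.image Prod.snd)) (Set.ncard_image_le hfin)
  rintro w ⟨hw, u, hu, huw⟩
  exact ⟨(u, w), ⟨hu, hw, huw⟩, rfl⟩

/-- Walk counts from a vertex are at most `d ^ n` for walks of length `n + 1`. -/
theorem walkCount_succ_le (hl : Labelling G nb) (y : V) : ∀ (n : ℕ) (v : V),
    walkCount nb (n + 1) y v ≤ (Fintype.card ι : ℝ) ^ n
  | 0, v => by
      simp only [walkCount, sum_boole, pow_zero]
      have : (univ.filter fun a => nb v a = y).card ≤ 1 := card_le_one.2 fun a ha b hb =>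
        hl.inj v ((mem_filter.1 ha).2.trans (mem_filter.1 hb).2.symm)
      exact_mod_cast this
  | n + 1, v => by
      rw [walkCount, pow_succ']
      refine (sum_le_sum fun a _ => walkCount_succ_le hl y n (nb v a)).trans (le_of_eq ?_)
      rw [sum_const, card_univ, nsmul_eq_mul]

theorem walkCount_nonneg (nb : V → ι → V) : ∀ (n : ℕ) (y v : V), 0 ≤ walkCount nb n y v
  | 0, y, v => by rw [walkCount]; split_ifs <;> norm_num
  | n + 1, y, v => by rw [walkCount]; exact sum_nonneg fun a _ => walkCount_nonneg nb n y _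

/-- Walks through a finite set of intermediate vertices are walks. -/
theorem sum_walkCount_le (nb : V → ι → V) (T : Finset V) (w : V) (k : ℕ) : ∀ (i : ℕ) (v : V),
    ∑ x ∈ T, walkCount nb i x v * walkCount nb k w x ≤ walkCount nb (i + k) w v
  | 0, v => by
      simp only [walkCount, Nat.zero_add, ite_mul, one_mul, zero_mul, sum_ite_eq]
      split_ifs
      · exact le_rfl
      · exact walkCount_nonneg nb k w v
  | i + 1, v => by
      rw [Nat.succ_add]
      simp only [walkCount, sum_mul]
      rw [sum_comm]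
      exact sum_le_sum fun a _ => sum_walkCount_le nb T w k i _

end Vale.Agent.P165
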